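import Vale.Agent.P068.Zfc.Windows

namespace Vale.Agent.P068.Zfc

open Set Filter

/-- The points in window `k` that no member of `s` selects, inside `A`. -/
def residue (A : Set Pt) (s : Finset (ℕ → Bool)) (k : ℕ) : Set Pt :=
  {a | a ∈ A ∧ a.1 = k ∧ ∀ x ∈ s, a ∉ sel x}

lemma residue_finite (A : Set Pt) (s : Finset (ℕ → Bool)) (k : ℕ) : (residue A s k).Finite :=
  ((finite_univ (α := (Fin k → Bool) → Bool)).image fun f => (⟨k, f⟩ : Pt)).subset
    fun a ha => by
      obtain ⟨k', f⟩ := a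
      obtain rfl : k' = k := ha.2.1
      exact ⟨f, mem_univ f, rfl⟩

/-- The sets covered, up to a null set, by finitely many selections. -/
def Small (A : Set Pt) : Prop :=
  ∃ s : Finset (ℕ → Bool), ∀ m : ℕ, ∀ᶠ k in atTop, m * (residue A s k).ncard ≤ S k

lemma Small.mono {A B : Set Pt} (h : Small B) (hs : A ⊆ B) : Small A :=
  let ⟨s, h⟩ := h
  ⟨s, fun m => (h m).mono fun k hk => (Nat.mul_le_mul_left m
    (ncard_le_ncard (show residue A s k ⊆ residue B s k from
      fun _ ha => ⟨hs ha.1, ha.2.1, ha.2.2⟩) (residue_finite B s k))).trans hk⟩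

lemma small_empty : Small ∅ :=
  ⟨∅, fun m => Filter.Eventually.of_forall fun k => by simp [residue]⟩

lemma Small.union {A B : Set Pt} (hA : Small A) (hB : Small B) : Small (A ∪ B) := by
  classical
  obtain ⟨s, hs⟩ := hA
  obtain ⟨t, ht⟩ := hB
  refine ⟨s ∪ t, fun m => ((hs (2 * m)).and (ht (2 * m))).mono fun k ⟨h1, h2⟩ => ?_⟩
  have hsub : residue (A ∪ B) (s ∪ t) k ⊆ residue A s k ∪ residue B t k := by
    rintro a ⟨ha | ha, hk, hn⟩
    · exact Or.inl ⟨ha, hk, fun x hx => hn x (Finset.mem_union_left _ hx)⟩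
    · exact Or.inr ⟨ha, hk, fun x hx => hn x (Finset.mem_union_right _ hx)⟩
  have h3 := Nat.mul_le_mul_left m ((ncard_le_ncard hsub ((residue_finite A s k).union
    (residue_finite B t k))).trans (ncard_union_le _ _))
  have e1 : 2 * m * (residue A s k).ncard = 2 * (m * (residue A s k).ncard) := Nat.mul_assoc 2 m _
  have e2 : 2 * m * (residue B t k).ncard = 2 * (m * (residue B t k).ncard) := Nat.mul_assoc 2 m _
  have e3 : m * ((residue A s k).ncard + (residue B t k).ncard) =
      m * (residue A s k).ncard + m * (residue B t k).ncard := Nat.mul_add m _ _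
  omega

lemma small_sel (x : ℕ → Bool) : Small (sel x) := by
  refine ⟨{x}, fun m => Filter.Eventually.of_forall fun k => ?_⟩
  have : residue (sel x) {x} k = ∅ := by
    ext a
    simp only [residue, mem_setOf_eq, mem_empty_iff_false, iff_false]
    rintro ⟨ha, -, h⟩
    exact h x (Finset.mem_singleton_self x) ha
  simp [this]

lemma small_of_null {A : Set Pt} {Y : Set Blk} (h : Null Y)
    (hA : A ⊆ Sum.inl ⁻¹' Y ∨ A ⊆ Sum.inr ⁻¹' Y) : Small A := by
  refine ⟨∅, fun m => (h m).mono fun k hk => le_trans (Nat.mul_le_mul_left m ?_) hk⟩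
  rcases hA with hA | hA
  · rw [← ncard_image_of_injective (residue A ∅ k) Sum.inl_injective]
    refine ncard_le_ncard ?_ (cnt_finite Y k)
    rintro _ ⟨a, ha, rfl⟩
    exact ⟨hA ha.1, ha.2.1⟩
  · rw [← ncard_image_of_injective (residue A ∅ k) Sum.inr_injective]
    refine ncard_le_ncard ?_ (cnt_finite Y k)
    rintro _ ⟨a, ha, rfl⟩
    exact ⟨hA ha.1, ha.2.1⟩

/-- The points whose window lies in column `i`. -/
def col (i : ℕ) : Set Pt := {a | (Nat.unpair a.1).1 = i}

lemma not_small_col (i : ℕ) : ¬ Small (col i) := by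
  classical
  rintro ⟨s, hs⟩
  obtain ⟨K, hK⟩ := eventually_atTop.1 (hs (2 ^ s.card + 1))
  set k := Nat.pair i K with hk
  have h := hK k (Nat.right_le_pair i K)
  let t : Finset (Fin k → Bool) := s.image fun x (j : Fin k) => x j
  let T := Fintype.piFinset fun a => if a ∈ t then ({false} : Finset Bool) else Finset.univ
  have hT : T.card * 2 ^ t.card = S k := card_prescribed t fun _ => false
  have hsub : ((T.image fun f => (⟨k, f⟩ : Pt)) : Set Pt) ⊆ residue (col i) s k := by
    rw [Finset.coe_image]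
    rintro _ ⟨f, hf, rfl⟩
    refine ⟨by simp [col, hk], rfl, fun x hx hsel => ?_⟩
    have hmem := Fintype.mem_piFinset.1 hf (fun j : Fin k => x j)
    rw [if_pos (Finset.mem_image_of_mem _ hx), Finset.mem_singleton] at hmem
    simp only [sel, mem_setOf_eq] at hsel
    rw [hmem] at hsel
    exact Bool.false_ne_true hsel
  have h1 := ncard_le_ncard hsub (residue_finite _ _ _)
  rw [ncard_coe_finset, Finset.card_image_of_injective _ (sigma_mk_injective (i := k))] at h1
  have h2 : T.card * 2 ^ t.card ≤ T.card * 2 ^ s.card :=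
    Nat.mul_le_mul_left _ (Nat.pow_le_pow_right (by norm_num) Finset.card_image_le)
  have h3 := Nat.mul_le_mul_left (2 ^ s.card + 1) h1
  have h4 : 0 < T.card := by
    rcases Nat.eq_zero_or_pos T.card with h0 | h0
    · rw [h0, Nat.zero_mul] at hT
      exact absurd hT.symm (S_pos k).ne'
    · exact h0
  have e : (2 ^ s.card + 1) * T.card = T.card * 2 ^ s.card + T.card := by ring
  omega

/-- Inclusion up to a small set. -/
def Sub (X Y : Set Pt) : Prop := Small (X \ Y)

lemma sub_of_subset {X Y : Set Pt} (h : X ⊆ Y) : Sub X Y := by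
  unfold Sub; rw [sdiff_eq_empty.2 h]; exact small_empty

lemma Sub.refl (X : Set Pt) : Sub X X := sub_of_subset Subset.rfl

lemma Sub.trans {X Y Z : Set Pt} (h1 : Sub X Y) (h2 : Sub Y Z) : Sub X Z :=
  (Small.union h1 h2).mono fun n hn => by
    by_cases h : n ∈ Y
    · exact Or.inr ⟨h, hn.2⟩
    · exact Or.inl ⟨hn.1, h⟩

variable {ι : Type} [LinearOrder ι] {T : ι → Set Pt}

/-- Big sets: those containing some `T a` up to a small set. -/
def Big (T : ι → Set Pt) (W : Set Pt) : Prop := ∃ a, Sub (T a) W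

/-- The rank of the big set `X'` lies below that of `Z`. -/
def RankBig (T : ι → Set Pt) (Z X' : Set Pt) : Prop :=
  ∃ a, Sub (T a) X' ∧ ∀ b ≤ a, ¬ Sub (T b) Z

/-- The properties of a ranking. -/
structure IsRank (T : ι → Set Pt) : Prop where
  not_both : ∀ W, Big T W → ¬ Big T Wᶜ
  either : ∀ W, Big T W ∨ Big T Wᶜ
  key : ∀ a W Z, Big T W → Big T Zᶜ → ∃ B ⊆ W, Big T B ∧ ∀ b ≤ a, ¬ Sub (T b) (B ∪ Z)

lemma Big.congr {W W' : Set Pt} (h : Big T W) (hs : Sub W W') : Big T W' :=
  ⟨h.choose, h.choose_spec.trans hs⟩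

lemma Big.mono {W W' : Set Pt} (h : Big T W) (hs : W ⊆ W') : Big T W' :=
  h.congr (sub_of_subset hs)

lemma RankBig.congr {Z Z' X X' : Set Pt} (h : RankBig T Z X) (hX : Sub X X') (hZ : Sub Z' Z) :
    RankBig T Z' X' :=
  ⟨h.choose, h.choose_spec.1.trans hX, fun b hb h' => h.choose_spec.2 b hb (h'.trans hZ)⟩

lemma IsRank.big_univ (hT : IsRank T) : Big T univ :=
  (hT.either univ).elim id fun h => h.mono (subset_univ _)

lemma IsRank.not_big_empty (hT : IsRank T) : ¬ Big T ∅ := fun h =>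
  hT.not_both ∅ h (by simpa using hT.big_univ)

/-- An ultrafilter avoiding the small sets, generated modulo them by as few sets as possible,
gives a ranking. -/
theorem exists_rank : ∃ (ι : Type) (_ : LinearOrder ι) (_ : WellFoundedLT ι) (T : ι → Set Pt),
    IsRank T := by
  classical
  let F : Filter Pt :=
    { sets := {X | ∃ N, ∀ i, N ≤ i → Small (Xᶜ ∩ col i)}
      univ_sets := ⟨0, fun i _ => by simpa using small_empty⟩
      sets_of_superset := fun ⟨N, hN⟩ hs => ⟨N, fun i hi => (hN i hi).mono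
        (inter_subset_inter_left _ (compl_subset_compl.2 hs))⟩
      inter_sets := by
        rintro X Y ⟨N, hN⟩ ⟨N', hN'⟩
        refine ⟨max N N', fun i hi => ((hN i (le_of_max_le_left hi)).union
          (hN' i (le_of_max_le_right hi))).mono ?_⟩
        rw [← union_inter_distrib_right, ← compl_inter] }
  haveI : F.NeBot := ⟨fun h => by
    have h' : (∅ : Set Pt) ∈ F := by rw [h]; trivial
    obtain ⟨N, hN⟩ := h'
    exact not_small_col N (by simpa using hN N le_rfl)⟩
  let u := Ultrafilter.of F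
  have hsmall : ∀ {X : Set Pt}, Small X → Xᶜ ∈ u := fun {X} hX =>
    Ultrafilter.of_le F (show Xᶜ ∈ F from
      ⟨0, fun i _ => hX.mono (by rw [compl_compl]; exact inter_subset_left)⟩)
  have hsub : ∀ {X W : Set Pt}, X ∈ u → Sub X W → W ∈ u := fun {X W} hX h =>
    Filter.mem_of_superset (Filter.inter_mem hX (hsmall h)) fun n hn => by
      by_contra hW
      exact hn.2 ⟨hn.1, hW⟩
  let Gen : Set (Set Pt) → Prop := fun G =>
    (∀ g ∈ G, g ∈ u) ∧ ∀ W ∈ u, ∃ g ∈ G, Sub g W
  obtain ⟨G, hG, hGmin⟩ := (InvImage.wf (fun G : Set (Set Pt) => Cardinal.mk G)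
    Cardinal.lt_wf).has_min {G | Gen G}
    ⟨{W | W ∈ u}, fun g hg => hg, fun W hW => ⟨W, hW, Sub.refl W⟩⟩
  have hinf : Cardinal.aleph0 ≤ Cardinal.mk G := by
    rw [Cardinal.aleph0_le_mk_iff, Set.infinite_coe_iff]
    intro hfin
    let g₀ := ⋂ g ∈ G, g
    have hg₀ : g₀ ∈ u := (Filter.biInter_mem hfin).2 hG.1
    have hcol : ∀ i, Small (g₀ ∩ col i) := by
      intro i
      have hmem : (col i)ᶜ ∈ u := Ultrafilter.of_le F (show (col i)ᶜ ∈ F from
        ⟨i + 1, fun j hj => small_empty.mono (by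
          rintro a ⟨ha, ha'⟩
          rw [compl_compl] at ha
          simp only [col, mem_setOf_eq] at ha ha'
          omega)⟩)
      obtain ⟨g, hg, hgW⟩ := hG.2 _ hmem
      exact Small.mono hgW fun a ha => ⟨mem_iInter₂.1 ha.1 g hg, not_not.2 ha.2⟩
    have hcompl : g₀ᶜ ∈ u := Ultrafilter.of_le F (show g₀ᶜ ∈ F from
      ⟨0, fun i _ => by rw [compl_compl]; exact hcol i⟩)
    exact Ultrafilter.compl_mem_iff_notMem.1 hcompl hg₀
  let ι := (Cardinal.mk G).ord.ToType
  have hι : Cardinal.mk ι = Cardinal.mk G := by rw [Cardinal.mk_toType, Cardinal.card_ord]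
  obtain ⟨e⟩ := Cardinal.eq.1 hι
  let T : ι → Set Pt := fun a => (e a).1
  have hbig : ∀ W, Big T W ↔ W ∈ u := fun W =>
    ⟨fun ⟨a, ha⟩ => hsub (hG.1 _ (e a).2) ha, fun hW => by
      obtain ⟨g, hg, hgW⟩ := hG.2 W hW
      exact ⟨e.symm ⟨g, hg⟩, by simpa [T] using hgW⟩⟩
  refine ⟨ι, inferInstance, inferInstance, T, fun W h h' => ?_, fun W => ?_, fun a W Z hW hZ => ?_⟩
  · rw [hbig] at h h'
    exact Ultrafilter.compl_mem_iff_notMem.1 h' h
  · rw [hbig, hbig]
    exact u.mem_or_compl_mem W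
  rw [hbig] at hW hZ
  let H : Set (Set Pt) := (fun b => T b \ Z) '' Iic a
  have hlt : Cardinal.mk H < Cardinal.mk G := by
    refine lt_of_le_of_lt Cardinal.mk_image_le ?_
    rw [← Iio_insert]
    refine lt_of_le_of_lt Cardinal.mk_insert_le
      (Cardinal.add_lt_of_lt hinf ?_ (Cardinal.one_lt_aleph0.trans_le hinf))
    simpa [ι] using Cardinal.mk_Iio_lt a
  have hnot : ¬ ∀ B ∈ u, ∃ g ∈ H, Sub g B := fun h => hGmin H ⟨by
    rintro _ ⟨b, -, rfl⟩
    exact Filter.inter_mem (hG.1 _ (e b).2) hZ, h⟩ hlt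
  push Not at hnot
  obtain ⟨B, hB, hBH⟩ := hnot
  refine ⟨B ∩ W, inter_subset_right, (hbig _).2 (Filter.inter_mem hB hW), fun b hb h => ?_⟩
  exact hBH _ ⟨b, hb, rfl⟩ (h.mono fun n hn => ⟨hn.1.1, fun h' => h'.elim (fun x => hn.2 x.1) hn.1.2⟩)

end Vale.Agent.P068.Zfc
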