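import Vale.Agent.P068.Zfc.Fibre
import Vale.Agent.P068.Zfc.Ranking

namespace Vale.Agent.P068.Zfc

open Set Matroid

/-- Small on both sides of a block. -/
def BSmall (Y : Set Blk) : Prop := Small (Sum.inl ⁻¹' Y) ∧ Small (Sum.inr ⁻¹' Y)

/-- Agreement up to a small set. -/
def BEq (Y Y' : Set Blk) : Prop := BSmall (Y \ Y') ∧ BSmall (Y' \ Y)

lemma BSmall.mono {X Y : Set Blk} (h : BSmall Y) (hs : X ⊆ Y) : BSmall X :=
  ⟨h.1.mono (preimage_mono hs), h.2.mono (preimage_mono hs)⟩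

lemma bsmall_of_null {Y : Set Blk} (h : Null Y) : BSmall Y :=
  ⟨small_of_null h (Or.inl Subset.rfl), small_of_null h (Or.inr Subset.rfl)⟩

lemma bsmall_bsel (x : ℕ → Bool) : BSmall (bsel x) :=
  ⟨(small_sel x).mono fun _ h => h, (small_sel x).mono fun _ h => h⟩

/-- A division of the subsets of a block that a uniform matroid is to respect. -/
structure Division where
  Over : Set Blk → Prop
  Under : Set Blk → Prop
  over_mono : ∀ Y Y', Y ⊆ Y' → Over Y → Over Y'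
  under_mono : ∀ Y Y', Y ⊆ Y' → Under Y' → Under Y
  disj : ∀ Y, ¬ (Over Y ∧ Under Y)
  over_congr : ∀ Y Y', BEq Y Y' → Over Y → Over Y'
  under_congr : ∀ Y Y', BEq Y Y' → Under Y → Under Y'
  over_univ : Over univ
  not_over_empty : ¬ Over ∅
  middle : ∀ I X, I ⊆ X → ¬ Over I → ¬ Under X →
    ∃ Y, I ⊆ Y ∧ Y ⊆ X ∧ ¬ Over Y ∧ ¬ Under Y

/-- The middle region. -/
def Division.Mid (dv : Division) (Y : Set Blk) : Prop := ¬ dv.Over Y ∧ ¬ dv.Under Y

lemma Division.mid_congr (dv : Division) {Y Y' : Set Blk} (h : BEq Y Y') (hY : dv.Mid Y) :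
    dv.Mid Y' :=
  ⟨fun h' => hY.1 (dv.over_congr _ _ ⟨h.2, h.1⟩ h'),
    fun h' => hY.2 (dv.under_congr _ _ ⟨h.2, h.1⟩ h')⟩

lemma Division.not_under_univ (dv : Division) : ¬ dv.Under univ := fun h =>
  dv.disj univ ⟨dv.over_univ, h⟩

/-- The class of `g` is comparable with the interval. -/
def Meets (g I X : Set Blk) : Prop := ZLe g I ∨ ZLe X g ∨ (ZLe I g ∧ ZLe g X)

/-- Fewer than continuum many classes can be avoided inside an interval. -/
lemma Division.extend (dv : Division) (G : Set (Set Blk))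
    (hG : Cardinal.mk G < Cardinal.continuum) {I X : Set Blk}
    (hIX : I ⊆ X) (hI : ¬ dv.Over I) (hX : ¬ dv.Under X)
    (hno : ∀ g ∈ G, ¬ Meets g I X) :
    ∃ b, I ⊆ b ∧ b ⊆ X ∧ dv.Mid b ∧ ∀ g ∈ G, ¬ Null (g \ b) ∧ ¬ Null (b \ g) := by
  classical
  obtain ⟨Y, hIY, hYX, hY1, hY2⟩ := dv.middle I X hIX hI hX
  -- what must be put in, and what must be left out
  let 𝒜 : Set (Set Blk) := (fun g => (X \ I) \ g) '' {g | g ∈ G ∧ ZLe I g}
  let 𝒞 : Set (Set Blk) := (fun g => g ∩ (X \ I)) '' {g | g ∈ G ∧ ZLe g X}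
  have hAc : Cardinal.mk 𝒜 < Cardinal.continuum :=
    lt_of_le_of_lt (Cardinal.mk_image_le.trans (Cardinal.mk_le_mk_of_subset fun g hg => hg.1)) hG
  have hCc : Cardinal.mk 𝒞 < Cardinal.continuum :=
    lt_of_le_of_lt (Cardinal.mk_image_le.trans (Cardinal.mk_le_mk_of_subset fun g hg => hg.1)) hG
  obtain ⟨x, y, hx, hy⟩ := exists_split 𝒜 𝒞 hAc hCc
    (by
      rintro _ ⟨g, ⟨hg, hle⟩, rfl⟩ h
      exact hno g hg (Or.inr (Or.inl ((Null.union hle h).mono fun z hz => by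
        by_cases hzI : z ∈ I
        · exact Or.inl ⟨hzI, hz.2⟩
        · exact Or.inr ⟨⟨hz.1, hzI⟩, hz.2⟩))))
    (by
      rintro _ ⟨g, ⟨hg, hle⟩, rfl⟩ h
      exact hno g hg (Or.inl ((Null.union hle h).mono fun z hz => by
        by_cases hzX : z ∈ X
        · exact Or.inr ⟨hz.1, hzX, hz.2⟩
        · exact Or.inl ⟨hz.1, hzX⟩)))
  refine ⟨(Y ∪ (bsel x ∩ (X \ I))) \ ((bsel y \ bsel x) ∩ (X \ I)), ?_, ?_, ?_, fun g hg => ?_⟩
  · exact fun z hz => ⟨Or.inl (hIY hz), fun h => h.2.2 hz⟩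
  · rintro z ⟨hz | hz, -⟩
    · exact hYX hz
    · exact hz.2.1
  · refine dv.mid_congr ⟨(bsmall_bsel y).mono ?_, (bsmall_bsel x).mono ?_⟩ ⟨hY1, hY2⟩
    · rintro z ⟨hz, hz'⟩
      by_contra h
      exact hz' ⟨Or.inl hz, fun h' => h h'.1.1⟩
    · rintro z ⟨⟨hz | hz, -⟩, hz'⟩
      · exact absurd hz hz'
      · exact hz.1
  constructor
  · -- something of `g` is left out
    by_cases h : ZLe g X
    · refine fun hn => hy _ ⟨g, ⟨hg, h⟩, rfl⟩ (hn.mono ?_)
      rintro z ⟨⟨hzg, hzD⟩, hzQ⟩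
      exact ⟨hzg, fun hb => hb.2 ⟨hzQ, hzD⟩⟩
    · refine fun hn => h (hn.mono ?_)
      rintro z ⟨hz, hz'⟩
      refine ⟨hz, ?_⟩
      rintro ⟨hb | hb, -⟩
      · exact hz' (hYX hb)
      · exact hz' hb.2.1
  · -- something outside `g` is put in
    by_cases h : ZLe I g
    · refine fun hn => hx _ ⟨g, ⟨hg, h⟩, rfl⟩ (hn.mono ?_)
      rintro z ⟨⟨hzD, hzg⟩, hzP⟩
      exact ⟨⟨Or.inr ⟨hzP, hzD⟩, fun h' => h'.1.2 hzP⟩, hzg⟩
    · refine fun hn => h (hn.mono ?_)
      rintro z ⟨hz, hz'⟩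
      exact ⟨⟨Or.inl (hIY hz), fun h' => h'.2.2 hz⟩, hz'⟩

/-- The index type: the initial ordinal of the continuum. -/
abbrev Cont : Type := (Cardinal.continuum.{0}).ord.ToType

lemma mk_Iio_cont (a : Cont) : Cardinal.mk (Iio a) < Cardinal.continuum := by
  simpa using Cardinal.mk_Iio_lt a

/-- Every division has a family of pairwise incomparable classes meeting every interval. -/
theorem Division.exists_classes (dv : Division) :
    ∃ 𝔊 : Set (Set Blk), (∀ g ∈ 𝔊, dv.Mid g) ∧ (∀ g ∈ 𝔊, ∀ g' ∈ 𝔊, ZLe g g' → g = g') ∧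
      (∀ I X, I ⊆ X → ¬ dv.Over I → ¬ dv.Under X → ∃ g ∈ 𝔊, Meets g I X) := by
  classical
  have hcard : Cardinal.mk (Set Blk × Set Blk) = Cardinal.mk Cont := by
    rw [Cardinal.mk_prod, Cardinal.lift_id, Cardinal.mk_set, Cardinal.mk_toType,
      Cardinal.card_ord, Cardinal.mk_eq_aleph0, Cardinal.two_power_aleph0,
      Cardinal.continuum_mul_self]
  obtain ⟨e⟩ := Cardinal.eq.1 hcard.symm
  let Act : Set (Set Blk) → Set Blk → Set Blk → Prop := fun G I X =>
    I ⊆ X ∧ ¬ dv.Over I ∧ ¬ dv.Under X ∧ ∀ g ∈ G, ¬ Meets g I X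
  have hstep : ∀ (G : {G : Set (Set Blk) // Cardinal.mk G < Cardinal.continuum}) (I X : Set Blk),
      ∃ o : Option (Set Blk), (Act G.1 I X → ∃ b, o = some b ∧ I ⊆ b ∧ b ⊆ X) ∧
        ∀ b, o = some b → dv.Mid b ∧ ∀ g ∈ G.1, ¬ Null (g \ b) ∧ ¬ Null (b \ g) := by
    intro G I X
    by_cases h : Act G.1 I X
    · obtain ⟨b, h1, h2, h3, h4⟩ := dv.extend G.1 G.2 h.1 h.2.1 h.2.2.1 h.2.2.2
      exact ⟨some b, fun _ => ⟨b, rfl, h1, h2⟩, fun b' hb' => by cases hb'; exact ⟨h3, h4⟩⟩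
    · exact ⟨none, fun h' => absurd h' h, fun b hb => nomatch hb⟩
  choose pick hpick1 hpick2 using hstep
  -- the recursion
  let coll : (a : Cont) → (∀ b, b < a → Option (Set Blk)) →
      {G : Set (Set Blk) // Cardinal.mk G < Cardinal.continuum} :=
    fun a rec => ⟨{g | ∃ b : Iio a, rec b.1 b.2 = some g}, by
      refine lt_of_le_of_lt ?_ (mk_Iio_cont a)
      refine Cardinal.mk_le_of_injective (f := fun g => g.2.choose) fun g g' h => ?_
      have h1 := g.2.choose_spec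
      have h2 := g'.2.choose_spec
      simp only at h
      rw [h] at h1
      exact Subtype.ext (Option.some.inj (h1.symm.trans h2))⟩
  let F : Cont → Option (Set Blk) :=
    WellFounded.fix wellFounded_lt fun a rec => pick (coll a rec) (e a).1 (e a).2
  let G : Cont → {G : Set (Set Blk) // Cardinal.mk G < Cardinal.continuum} :=
    fun a => coll a fun b _ => F b
  have hF : ∀ a, F a = pick (G a) (e a).1 (e a).2 := fun a => WellFounded.fix_eq wellFounded_lt _ a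
  have hGmem : ∀ a b g, b < a → F b = some g → g ∈ (G a).1 := fun a b g hb hg =>
    ⟨⟨b, hb⟩, hg⟩
  refine ⟨{g | ∃ a, F a = some g}, ?_, ?_, ?_⟩
  · rintro g ⟨a, hg⟩
    exact (hpick2 _ _ _ g (hF a ▸ hg)).1
  · rintro g ⟨a, hg⟩ g' ⟨a', hg'⟩ hle
    rcases lt_trichotomy a a' with h | rfl | h
    · exact absurd hle ((hpick2 _ _ _ g' (hF a' ▸ hg')).2 g (hGmem a' a g h hg)).1
    · exact Option.some.inj (hg.symm.trans hg')
    · exact absurd hle ((hpick2 _ _ _ g (hF a ▸ hg)).2 g' (hGmem a a' g' h hg')).2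
  · intro I X hIX hI hX
    obtain ⟨a, ha⟩ : ∃ a, e a = (I, X) := ⟨e.symm (I, X), e.apply_symm_apply _⟩
    by_cases hs : ∀ g ∈ (G a).1, ¬ Meets g I X
    · obtain ⟨b, hb, h1, h2⟩ := hpick1 (G a) I X ⟨hIX, hI, hX, hs⟩
      exact ⟨b, ⟨a, by rw [hF a, ha]; exact hb⟩,
        Or.inr (Or.inr ⟨zle_of_subset h1, zle_of_subset h2⟩)⟩
    · push Not at hs
      obtain ⟨g, ⟨⟨b, hb⟩, hgb⟩, hg⟩ := hs
      exact ⟨g, ⟨b, hgb⟩, hg⟩

/-- The uniform matroid respecting a division, with the properties that are used. -/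
theorem Division.exists_matroid (dv : Division) :
    ∃ U : Matroid Blk, U.E = univ ∧ (∀ B, U.IsBase B → dv.Mid B) ∧
      (∀ Y, U.Indep Y → U.IsBase Y ∨ U.closure Y = Y) ∧
      ∀ Y, U.Indep Y ∨ U.Spanning Y := by
  classical
  obtain ⟨𝔊, hmid, hanti, hint⟩ := dv.exists_classes
  let 𝔅 : Set (Set Blk) := {B | ∃ g ∈ 𝔊, ZLe B g ∧ ZLe g B ∧ Tight g B}
  have hBmid : ∀ B ∈ 𝔅, dv.Mid B := fun B ⟨g, hg, h1, h2, _⟩ =>
    dv.mid_congr ⟨bsmall_of_null h2, bsmall_of_null h1⟩ (hmid g hg)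
  have hBanti : ∀ B ∈ 𝔅, ∀ B' ∈ 𝔅, B ⊆ B' → B = B' := by
    rintro B ⟨g, hg, h1, h2, h3⟩ B' ⟨g', hg', h1', h2', h3'⟩ hsub
    obtain rfl := hanti g hg g' hg' (h2.trans ((zle_of_subset hsub).trans h1'))
    exact h3.eq_of_subset h3'.1 hsub
  let Ind : Set Blk → Prop := fun Y => ∃ B ∈ 𝔅, Y ⊆ B
  have hnotover : ∀ Y, Ind Y → ¬ dv.Over Y := fun Y ⟨B, hB, hYB⟩ h =>
    (hBmid B hB).1 (dv.over_mono _ _ hYB h)
  -- a tight set between two sets of the class of `g`
  have cross : ∀ g ∈ 𝔊, ∀ I X, I ⊆ X → ZLe g I → ZLe X g → Ok g I → ¬ Ok g X →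
      ∃ B ∈ 𝔅, I ⊆ B ∧ B ⊆ X := by
    intro g hg I X hIX hgI hXg hI hX
    obtain ⟨B, h1, h2, h3⟩ := exists_tight_between hIX hgI hI hX
    exact ⟨B, ⟨g, hg, (zle_of_subset h2).trans hXg, hgI.trans (zle_of_subset h1), h3⟩, h1, h2⟩
  -- every balanced member of a class is independent
  have ext' : ∀ g ∈ 𝔊, ∀ Y, ZLe Y g → ZLe g Y → Ok g Y → Ind Y := by
    intro g hg Y hYg hgY hok
    have hD : ¬ Null Yᶜ := by
      intro h
      refine (hmid g hg).1 (dv.over_congr univ g ?_ dv.over_univ)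
      exact ⟨bsmall_of_null ((h.union hYg).mono fun z hz => by
        by_cases hzY : z ∈ Y
        · exact Or.inr ⟨hzY, hz.2⟩
        · exact Or.inl hzY), bsmall_of_null (zle_of_subset (subset_univ g))⟩
    obtain ⟨E, hE, hEn, hEok⟩ := exists_null_add hgY hD disjoint_compl_left
    obtain ⟨B, hB, h1, -⟩ := cross g hg Y (Y ∪ E) subset_union_left hgY
      ((hYg.union hEn).mono fun z hz => hz.1.elim (fun h => Or.inl ⟨h, hz.2⟩) Or.inr) hok hEok
    exact ⟨B, hB, h1⟩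
  have key : ∀ I X, Ind I → I ⊆ X → Ind X ∨ ∃ B ∈ 𝔅, I ⊆ B ∧ B ⊆ X := by
    intro I X hI hIX
    obtain ⟨B₀, ⟨g₀, hg₀, hB₀1, hB₀2, hB₀3⟩, hIB₀⟩ := hI
    have hI' : Ind I := ⟨B₀, ⟨g₀, hg₀, hB₀1, hB₀2, hB₀3⟩, hIB₀⟩
    -- some class lies above `X` or inside the interval
    obtain ⟨g, hg, hcase⟩ : ∃ g ∈ 𝔊, ZLe X g ∨ (ZLe I g ∧ ZLe g X) := by
      by_cases hX : dv.Under X
      · have hXo : ¬ dv.Over X := fun h => dv.disj X ⟨h, hX⟩
        obtain ⟨g, hg, h | h | h⟩ := hint X univ (subset_univ _) hXo dv.not_under_univ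
        · exfalso
          have hb : BEq (g ∩ X) g :=
            ⟨bsmall_of_null (zle_of_subset inter_subset_left),
              bsmall_of_null (h.mono fun z hz => ⟨hz.1, fun hzX => hz.2 ⟨hz.1, hzX⟩⟩)⟩
          exact (hmid g hg).2 (dv.under_congr _ _ hb (dv.under_mono _ _ inter_subset_right hX))
        · exact ⟨g, hg, Or.inl ((zle_of_subset (subset_univ X)).trans h)⟩
        · exact ⟨g, hg, Or.inl h.1⟩
      · obtain ⟨g, hg, h | h | h⟩ := hint I X hIX (hnotover I hI') hX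
        · obtain rfl := hanti g hg g₀ hg₀ (h.trans ((zle_of_subset hIB₀).trans hB₀1))
          exact ⟨g, hg, Or.inr ⟨(zle_of_subset hIB₀).trans hB₀1, h.trans (zle_of_subset hIX)⟩⟩
        · exact ⟨g, hg, Or.inl h⟩
        · exact ⟨g, hg, Or.inr h⟩
    have mid : ZLe I g → ZLe g X → Ind X ∨ ∃ B ∈ 𝔅, I ⊆ B ∧ B ⊆ X := by
      intro hIg hgX
      set C := (g ∪ I) ∩ X with hC
      have hIC : I ⊆ C := subset_inter subset_union_right hIX
      have hCX : C ⊆ X := inter_subset_right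
      have hCg : ZLe C g := hIg.mono fun z hz => ⟨hz.1.1.resolve_left hz.2, hz.2⟩
      have hgC : ZLe g C := hgX.mono fun z hz => ⟨hz.1, fun h => hz.2 ⟨Or.inl hz.1, h⟩⟩
      by_cases hokC : Ok g C
      · by_cases hXC : Null (X \ C)
        · have hXg : ZLe X g := ZLe.trans hXC hCg
          by_cases hokX : Ok g X
          · exact Or.inl (ext' g hg X hXg hgX hokX)
          · obtain ⟨B, hB, h1, h2⟩ := cross g hg C X hCX hgC hXg hokC hokX
            exact Or.inr ⟨B, hB, hIC.trans h1, h2⟩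
        · obtain ⟨E, hE, hEn, hEok⟩ := exists_null_add hgC hXC disjoint_sdiff_left
          obtain ⟨B, hB, h1, h2⟩ := cross g hg C (C ∪ E) subset_union_left hgC
            ((hCg.union hEn).mono fun z hz => hz.1.elim (fun h => Or.inl ⟨h, hz.2⟩) Or.inr)
            hokC hEok
          exact Or.inr ⟨B, hB, hIC.trans h1,
            h2.trans (union_subset hCX (hE.trans sdiff_subset))⟩
      · by_cases hCI : Null (C \ I)
        · have hgI : ZLe g I := hgC.trans hCI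
          obtain rfl := hanti g hg g₀ hg₀ (hgI.trans ((zle_of_subset hIB₀).trans hB₀1))
          obtain ⟨B, hB, h1, h2⟩ := cross g hg I C hIC hgI hCg (hB₀3.1.mono hIB₀) hokC
          exact Or.inr ⟨B, hB, h1, h2.trans hCX⟩
        · obtain ⟨E, hE, hEn, hEok⟩ := exists_null_remove hCg hCI sdiff_subset
          obtain ⟨B, hB, h1, h2⟩ := cross g hg (C \ E) C sdiff_subset
            ((hgC.union hEn).mono fun z hz => by
              by_cases hzC : z ∈ C
              · exact Or.inr (by_contra fun hzE => hz.2 ⟨hzC, hzE⟩)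
              · exact Or.inl ⟨hz.1, hzC⟩) hCg hEok hokC
          exact Or.inr ⟨B, hB,
            Subset.trans (show I ⊆ C \ E from fun z hz => ⟨hIC hz, fun hzE => (hE hzE).2 hz⟩) h1, h2.trans hCX⟩
    rcases hcase with hXg | h
    · have hCg : ZLe (X ∪ g) g := hXg.mono fun z hz => ⟨hz.1.resolve_right hz.2, hz.2⟩
      have hgC : ZLe g (X ∪ g) := zle_of_subset subset_union_right
      by_cases hok : Ok g (X ∪ g)
      · obtain ⟨B, hB, h⟩ := ext' g hg _ hCg hgC hok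
        exact Or.inl ⟨B, hB, subset_union_left.trans h⟩
      · by_cases hgX : ZLe g X
        · exact mid ((zle_of_subset hIX).trans hXg) hgX
        · obtain ⟨E, hE, hEn, hEok⟩ :=
            exists_null_remove (D := g \ X) hCg hgX (sdiff_subset.trans subset_union_right)
          obtain ⟨B, hB, h1, -⟩ := cross g hg ((X ∪ g) \ E) (X ∪ g) sdiff_subset
            (hEn.mono fun z hz => by_contra fun hzE => hz.2 ⟨Or.inr hz.1, hzE⟩) hCg hEok hok
          exact Or.inl ⟨B, hB,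
            Subset.trans (show X ⊆ (X ∪ g) \ E from fun z hz => ⟨Or.inl hz, fun hzE => (hE hzE).2 hz⟩) h1⟩
    · exact mid h.1 h.2
  have hempty : Ind ∅ := by
    obtain ⟨g, hg, -⟩ := hint ∅ univ (subset_univ _) dv.not_over_empty dv.not_under_univ
    exact ⟨g, ⟨g, hg, zle_of_subset Subset.rfl, zle_of_subset Subset.rfl, tight_self g⟩,
      empty_subset g⟩
  have hmax : ∀ B, B ∈ 𝔅 → Maximal Ind B := fun B hB => ⟨⟨B, hB, Subset.rfl⟩,
    fun Y ⟨B', hB', hY⟩ hBY => by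
      have := hBanti B hB B' hB' (hBY.trans hY)
      subst this
      exact hY⟩
  have haug : ∀ ⦃I B⦄, Ind I → ¬ Maximal Ind I → Maximal Ind B → ∃ x ∈ B \ I, Ind (insert x I) := by
    intro I B hI hnI hB
    by_cases hBI : B ⊆ I
    · exact absurd (hB.2 hI hBI) (fun hIB => hnI (subset_antisymm hIB hBI ▸ hB))
    obtain ⟨x, hxB, hxI⟩ := not_subset.1 hBI
    refine ⟨x, ⟨hxB, hxI⟩, ?_⟩
    rcases key I (insert x I) hI (subset_insert _ _) with h | ⟨B', hB', h1, h2⟩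
    · exact h
    · by_cases hx : x ∈ B'
      · exact ⟨B', hB', insert_subset hx h1⟩
      · have : B' ⊆ I := fun y hy => (h2 hy).resolve_left (fun h => hx (h ▸ hy))
        exact absurd (subset_antisymm h1 this ▸ hmax B' hB') hnI
  let IM : IndepMatroid Blk :=
    { E := univ
      Indep := Ind
      indep_empty := hempty
      indep_subset := fun I J ⟨B, hB, hJ⟩ hIJ => ⟨B, hB, hIJ.trans hJ⟩
      indep_aug := haug
      indep_maximal := by
        intro X _ I hI hIX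
        rcases key I X hI hIX with h | ⟨B, hB, h1, h2⟩
        · exact ⟨X, hIX, ⟨⟨h, Subset.rfl⟩, fun Y hY _ => hY.2⟩⟩
        · exact ⟨B, h1, ⟨⟨⟨B, hB, Subset.rfl⟩, h2⟩, fun Y hY hBY => (hmax B hB).2 hY.1 hBY⟩⟩
      subset_ground := fun _ _ => subset_univ _ }
  have hind : ∀ Y, IM.matroid.Indep Y ↔ Ind Y := fun Y => Iff.rfl
  refine ⟨IM.matroid, rfl, ?_, ?_, ?_⟩
  rotate_left 2
  · intro Y
    rcases key ∅ Y hempty (empty_subset Y) with h | ⟨B, hB, -, hBY⟩
    · exact Or.inl ((hind Y).2 h)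
    · have hBb : IM.matroid.IsBase B := Matroid.isBase_iff_maximal_indep.2 (hmax B hB)
      exact Or.inr (Matroid.spanning_iff_exists_isBase_subset'.2 ⟨⟨B, hBb, hBY⟩, subset_univ _⟩)
  · intro B hB
    obtain ⟨B', hB', hsub⟩ : Ind B := (hind B).1 hB.indep
    have := hB.eq_of_subset_indep ((hind B').2 ⟨B', hB', Subset.rfl⟩) hsub
    exact this ▸ hBmid B' hB'
  · intro Y hY
    by_cases hYB : IM.matroid.IsBase Y
    · exact Or.inl hYB
    refine Or.inr (subset_antisymm ?_ (IM.matroid.subset_closure Y (subset_univ _)))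
    intro x hx
    by_contra hxY
    have hdep := (hY.mem_closure_iff_of_notMem hxY).1 hx
    rcases key Y (insert x Y) hY (subset_insert _ _) with h | ⟨B', hB', h1, h2⟩
    · exact hdep.not_indep ((hind _).2 h)
    · by_cases hxB : x ∈ B'
      · exact hdep.not_indep ((hind _).2 ⟨B', hB', insert_subset hxB h1⟩)
      · have : B' ⊆ Y := fun y hy => (h2 hy).resolve_left (fun h => hxB (h ▸ hy))
        obtain rfl := subset_antisymm h1 this
        obtain ⟨D, hD, hYD⟩ := hY.exists_isBase_superset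
        obtain ⟨D', hD', hDD'⟩ : Ind D := (hind D).1 hD.indep
        obtain rfl := hBanti Y hB' D' hD' (hYD.trans hDD')
        exact hYB (subset_antisymm hYD hDD' ▸ hD)

end Vale.Agent.P068.Zfc
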