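import Vale.Agent.P068.Family
import Vale.Agent.P068.Zfc.Builder

namespace Vale.Agent.P068.Zfc

open Set Matroid

variable {ι : Type} [LinearOrder ι] {T : ι → Set Pt}

lemma beq_inl {Y Y' : Set Blk} (h : BEq Y Y') :
    Sub (Sum.inl ⁻¹' Y) (Sum.inl ⁻¹' Y') ∧ Sub (Sum.inl ⁻¹' Y') (Sum.inl ⁻¹' Y) :=
  ⟨h.1.1, h.2.1⟩

lemma beq_inr_compl {Y Y' : Set Blk} (h : BEq Y Y') :
    Sub (Sum.inr ⁻¹' Y)ᶜ (Sum.inr ⁻¹' Y')ᶜ ∧ Sub (Sum.inr ⁻¹' Y')ᶜ (Sum.inr ⁻¹' Y)ᶜ :=
  ⟨h.2.2.mono fun _ hn => ⟨not_not.1 hn.2, hn.1⟩, h.1.2.mono fun _ hn => ⟨not_not.1 hn.2, hn.1⟩⟩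

lemma beq_inr {Y Y' : Set Blk} (h : BEq Y Y') :
    Sub (Sum.inr ⁻¹' Y) (Sum.inr ⁻¹' Y') ∧ Sub (Sum.inr ⁻¹' Y') (Sum.inr ⁻¹' Y) :=
  ⟨h.1.2, h.2.2⟩

lemma beq_inl_compl {Y Y' : Set Blk} (h : BEq Y Y') :
    Sub (Sum.inl ⁻¹' Y)ᶜ (Sum.inl ⁻¹' Y')ᶜ ∧ Sub (Sum.inl ⁻¹' Y')ᶜ (Sum.inl ⁻¹' Y)ᶜ :=
  ⟨h.2.1.mono fun _ hn => ⟨not_not.1 hn.2, hn.1⟩, h.1.1.mono fun _ hn => ⟨not_not.1 hn.2, hn.1⟩⟩

/-- The division for a block on a ray. -/
def rayDivision (hT : IsRank T) : Division where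
  Over Y := Big T (Sum.inl ⁻¹' Y) ∧ ¬ RankBig T (Sum.inl ⁻¹' Y) (Sum.inr ⁻¹' Y)ᶜ
  Under Y := ¬ Big T (Sum.inl ⁻¹' Y) ∧ ¬ RankBig T (Sum.inl ⁻¹' Y)ᶜ (Sum.inr ⁻¹' Y)
  over_mono Y Y' hs h := ⟨h.1.mono (preimage_mono hs), fun h' => h.2 (h'.congr
    (sub_of_subset (compl_subset_compl.2 (preimage_mono hs))) (sub_of_subset (preimage_mono hs)))⟩
  under_mono Y Y' hs h := ⟨fun h' => h.1 (h'.mono (preimage_mono hs)), fun h' => h.2 (h'.congr
    (sub_of_subset (preimage_mono hs)) (sub_of_subset (compl_subset_compl.2 (preimage_mono hs))))⟩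
  disj Y h := h.2.1 h.1.1
  over_congr Y Y' he h := ⟨h.1.congr (beq_inl he).1,
    fun h' => h.2 (h'.congr (beq_inr_compl he).2 (beq_inl he).1)⟩
  under_congr Y Y' he h := ⟨fun h' => h.1 (h'.congr (beq_inl he).2),
    fun h' => h.2 (h'.congr (beq_inr he).2 (beq_inl_compl he).1)⟩
  over_univ := ⟨by simpa using hT.big_univ, fun h => hT.not_big_empty ⟨h.choose, by simpa using h.choose_spec.1⟩⟩
  not_over_empty h := hT.not_big_empty (by simpa using h.1)
  middle := by
    intro I X hIX hI hX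
    set Z₁ := Sum.inl ⁻¹' I with hZ₁
    set Z₂ := Sum.inl ⁻¹' X with hZ₂
    set R := Sum.inr ⁻¹' I with hR
    by_cases hbig₁ : Big T Z₁
    · exact ⟨I, Subset.rfl, hIX, hI, fun h => h.1 hbig₁⟩
    by_cases hbig₂ : Big T Z₂
    swap
    · exact ⟨X, hIX, Subset.rfl, fun h => hbig₂ h.1, hX⟩
    have hbig₁' : Big T Z₁ᶜ := (hT.either Z₁).resolve_left hbig₁
    have hZ : Z₁ ⊆ Z₂ := preimage_mono hIX
    -- build the point with a prescribed left coordinate
    have build : ∀ Z, Z₁ ⊆ Z → Z ⊆ Z₂ → ∃ Y, I ⊆ Y ∧ Y ⊆ X ∧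
        Sum.inl ⁻¹' Y = Z ∧ Sum.inr ⁻¹' Y = R := by
      intro Z h1 h2
      refine ⟨Sum.inl '' Z ∪ Sum.inr '' (Sum.inr ⁻¹' I), ?_, ?_, ?_, ?_⟩
      · rintro (n | n) h
        · exact Or.inl ⟨n, h1 h, rfl⟩
        · exact Or.inr ⟨n, h, rfl⟩
      · rintro _ (⟨n, h, rfl⟩ | ⟨n, h, rfl⟩)
        · exact h2 h
        · exact hIX h
      · ext n; simp
      · ext n; simp [hR]
    rcases hT.either R with ⟨b, hb⟩ | ⟨b, hb⟩
    · obtain ⟨B, hB, hBbig, hBb⟩ := hT.key b Z₁ᶜ Z₂ᶜ hbig₁' (by rwa [compl_compl])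
      obtain ⟨Y, hY1, hY2, hYl, hYr⟩ := build (B ∪ Z₂ᶜ)ᶜ
        (fun n hn hn' => hn'.elim (fun h => hB h hn) (fun h => h (hZ hn)))
        (fun n hn => by by_contra h; exact hn (Or.inr h))
      refine ⟨Y, hY1, hY2, ?_, ?_⟩
      · rintro ⟨h, -⟩
        rw [hYl] at h
        exact hT.not_both _ h (by rw [compl_compl]; exact hBbig.mono subset_union_left)
      · rintro ⟨-, h⟩
        refine h ⟨b, ?_, ?_⟩
        · rw [hYr]; exact hb
        · rw [hYl, compl_compl]; exact hBb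
    · obtain ⟨B, hB, hBbig, hBb⟩ := hT.key b Z₂ Z₁ hbig₂ hbig₁'
      obtain ⟨Y, hY1, hY2, hYl, hYr⟩ := build (B ∪ Z₁) subset_union_right (union_subset hB hZ)
      refine ⟨Y, hY1, hY2, ?_, ?_⟩
      · rintro ⟨-, h⟩
        exact h ⟨b, by rw [hYr]; exact hb, by rw [hYl]; exact hBb⟩
      · rintro ⟨h, -⟩
        rw [hYl] at h
        exact h (hBbig.mono subset_union_left)

/-- The division for the central block. -/
def centreDivision (hT : IsRank T) : Division where
  Over Y := ¬ Big T (Sum.inl ⁻¹' Y)ᶜ ∧ ¬ Big T (Sum.inr ⁻¹' Y)ᶜ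
  Under Y := Big T (Sum.inl ⁻¹' Y)ᶜ ∧ Big T (Sum.inr ⁻¹' Y)ᶜ
  over_mono Y Y' hs h :=
    ⟨fun h' => h.1 (h'.mono (compl_subset_compl.2 (preimage_mono hs))),
      fun h' => h.2 (h'.mono (compl_subset_compl.2 (preimage_mono hs)))⟩
  under_mono Y Y' hs h :=
    ⟨h.1.mono (compl_subset_compl.2 (preimage_mono hs)),
      h.2.mono (compl_subset_compl.2 (preimage_mono hs))⟩
  disj Y h := h.1.1 h.2.1
  over_congr Y Y' he h :=
    ⟨fun h' => h.1 (h'.congr (beq_inl_compl he).2),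
      fun h' => h.2 (h'.congr (beq_inr_compl he).2)⟩
  under_congr Y Y' he h :=
    ⟨h.1.congr (beq_inl_compl he).1, h.2.congr (beq_inr_compl he).1⟩
  over_univ := ⟨by simpa using hT.not_big_empty, by simpa using hT.not_big_empty⟩
  not_over_empty h := h.1 (by simpa using hT.big_univ)
  middle := by
    intro I X hIX hI hX
    by_cases hIu : Big T (Sum.inl ⁻¹' I)ᶜ ∧ Big T (Sum.inr ⁻¹' I)ᶜ
    swap
    · exact ⟨I, Subset.rfl, hIX, hI, hIu⟩
    by_cases hXo : ¬ Big T (Sum.inl ⁻¹' X)ᶜ ∧ ¬ Big T (Sum.inr ⁻¹' X)ᶜ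
    swap
    · exact ⟨X, hIX, Subset.rfl, hXo, hX⟩
    refine ⟨Sum.inl '' (Sum.inl ⁻¹' I) ∪ Sum.inr '' (Sum.inr ⁻¹' X), ?_, ?_, ?_, ?_⟩
    · rintro (n | n) h
      · exact Or.inl ⟨n, h, rfl⟩
      · exact Or.inr ⟨n, hIX h, rfl⟩
    · rintro _ (⟨n, h, rfl⟩ | ⟨n, h, rfl⟩)
      · exact hIX h
      · exact h
    · rintro ⟨h, -⟩
      exact h (hIu.1.mono (fun n hn => by simpa using hn))
    · rintro ⟨-, h⟩
      exact hXo.2 (h.mono (fun n hn => by simpa using hn))

/-- Blocks: a centre and two rays. -/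
abbrev Blocks : Type := Option (Bool × ℕ)

/-- The bundle key of an element. -/
def pairKey : (Σ _ : Blocks, Blk) → Bool × ℕ × Pt
  | ⟨none, Sum.inl n⟩ => (false, 0, n)
  | ⟨none, Sum.inr n⟩ => (true, 0, n)
  | ⟨some (b, j), Sum.inl n⟩ => (b, j, n)
  | ⟨some (b, j), Sum.inr n⟩ => (b, j + 1, n)

/-- The element of the centre in the first bundle of ray `b`. -/
def centreElt : Bool → Pt → Blk
  | false, n => Sum.inl n
  | true, n => Sum.inr n

lemma pairKey_centre (b : Bool) (n : Pt) : pairKey ⟨none, centreElt b n⟩ = (b, 0, n) := by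
  cases b <;> rfl

lemma no_descending [WellFoundedLT ι] (f : ℕ → ι) (h : ∀ n, f (n + 1) < f n) : False := by
  obtain ⟨a, ⟨n, rfl⟩, hmin⟩ := wellFounded_lt.has_min (range f) ⟨f 0, mem_range_self 0⟩
  exact hmin (f (n + 1)) (mem_range_self _) (h n)

/-- The key contradiction. -/
theorem no_intersection [WellFoundedLT ι] (hT : IsRank T) (U U₀ : Matroid Blk)
    (hUE : U.E = univ) (hU₀E : U₀.E = univ)
    (hU : ∀ B, U.IsBase B → (rayDivision hT).Mid B)
    (hU₀ : ∀ B, U₀.IsBase B → (centreDivision hT).Mid B)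
    (hUc : ∀ Y, U.Indep Y → U.IsBase Y ∨ U.closure Y = Y)
    (hU₀c : ∀ Y, U₀.Indep Y → U₀.IsBase Y ∨ U₀.closure Y = Y) :
    ¬ SatisfiesIntersection (famSum fun k : Blocks => k.elim U₀ (fun _ => U))
        ((freeOn (univ : Set (Bool × ℕ × Pt))).comap pairKey) := by
  classical
  rintro ⟨J, JM, JN, hM, hN, hJ, hd, hcl⟩
  set F : Blocks → Matroid Blk := fun k => k.elim U₀ (fun _ => U) with hF
  obtain ⟨-, hinj⟩ := (Matroid.comap_indep_iff.1 hN)
  have hJM : JM ⊆ J := hJ ▸ subset_union_left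
  have hJN : JN ⊆ J := hJ ▸ subset_union_right
  have hblk : ∀ k, (F k).Indep (tag k ⁻¹' J) := hM
  have hbM : ∀ k, (F k).Indep (tag k ⁻¹' JM) := fun k => (hblk k).subset (preimage_mono hJM)
  -- an element whose pair is not met by `JN` is spanned by `JM`
  have hspan : ∀ k x, pairKey (tag k x) ∉ pairKey '' JN →
      x ∈ (F k).closure (tag k ⁻¹' JM) := by
    intro k x hx
    have hz : tag k x ∈ (famSum F).closure JM ∪
        ((freeOn (univ : Set (Bool × ℕ × Pt))).comap pairKey).closure JN := by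
      rw [hcl]
      refine ⟨mem_univ k, ?_⟩
      rcases k with - | p
      · simp [hF, hU₀E]
      · simp [hF, hUE]
    rcases hz with hz | hz
    · exact famSum_closure (hM.subset hJM) hz
    · rw [comap_closure_eq] at hz
      simp at hz
      exact absurd hz (by simpa using hx)
  have hfree : ∀ k x, tag k x ∈ JM → pairKey (tag k x) ∉ pairKey '' JN := by
    rintro k x hx ⟨z, hz, hzk⟩
    obtain rfl := hinj (hJN hz) (hJM hx) hzk
    exact hd.notMem_of_mem_left hx hz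
  have hbase : ∀ k x, tag k x ∉ JM → pairKey (tag k x) ∉ pairKey '' JN →
      (F k).IsBase (tag k ⁻¹' JM) := by
    intro k x hx hk
    have h := hspan k x hk
    rcases k with - | p
    · exact (hU₀c _ (hbM none)).resolve_right fun he => hx (he ▸ h : x ∈ tag none ⁻¹' JM)
    · exact (hUc _ (hbM (some p))).resolve_right fun he => hx (he ▸ h : x ∈ tag (some p) ⁻¹' JM)
  -- the partner of a chosen element
  have hpart : ∀ k x k' x', tag k x ∈ JM → pairKey (tag k' x') = pairKey (tag k x) → k' ≠ k →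
      tag k' x' ∉ JM ∧ (F k').IsBase (tag k' ⁻¹' JM) := by
    intro k x k' x' hx he hne
    have hnot : tag k' x' ∉ JM := fun h =>
      hne (congrArg Sigma.fst (hinj (hJM h) (hJM hx) he))
    exact ⟨hnot, hbase k' x' hnot (he ▸ hfree k x hx)⟩
  let Z : Bool → ℕ → Set Pt := fun b j => Sum.inl ⁻¹' (tag (some (b, j)) ⁻¹' JM)
  let W : Bool → ℕ → Set Pt := fun b j => (Sum.inr ⁻¹' (tag (some (b, j)) ⁻¹' JM))ᶜ
  have hZW : ∀ b j, Z b (j + 1) ⊆ W b j := by
    intro b j n hn hn'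
    exact absurd (congrArg Sigma.fst (hinj (hJM hn) (hJM hn') rfl))
      (by simp)
  -- no base on a ray with a small left part
  have hsmall : ∀ b j, (F (some (b, j))).IsBase (tag (some (b, j)) ⁻¹' JM) →
      Big T (Z b j) := by
    intro b j hB
    by_contra hns
    let Sst : ℕ → ι → Prop := fun i a =>
      (F (some (b, i))).IsBase (tag (some (b, i)) ⁻¹' JM) ∧ ¬ Big T (Z b i) ∧
        Sub (T a) (W b i)ᶜ ∧ ∀ c ≤ a, ¬ Sub (T c) (Z b i)ᶜ
    have init : ∀ i, (F (some (b, i))).IsBase (tag (some (b, i)) ⁻¹' JM) → ¬ Big T (Z b i) →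
        ∃ a, Sst i a := by
      intro i hi hi'
      by_contra hno
      exact (hU _ hi).2 ⟨hi', fun ⟨a, ha, ha'⟩ =>
        hno ⟨a, hi, hi', ha.trans (sub_of_subset fun n hn hn' => hn' hn), ha'⟩⟩
    have next' : ∀ i a, Sst i a → ∃ a', a' < a ∧ Sst (i + 1) a' := by
      rintro i a ⟨hi, hi', ha, ha'⟩
      obtain ⟨n, hn⟩ : ((W b i)ᶜ).Nonempty := by
        rw [nonempty_iff_ne_empty]
        intro h
        exact hT.not_big_empty ⟨a, h ▸ ha⟩
      have hn' : tag (some (b, i)) (Sum.inr n) ∈ JM := not_not.1 hn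
      obtain ⟨-, hB'⟩ := hpart _ _ (some (b, i + 1)) (Sum.inl n) hn' rfl (by simp)
      have hsub : Sub (T a) (Z b (i + 1))ᶜ :=
        ha.trans (sub_of_subset (compl_subset_compl.2 (hZW b i)))
      have hZsmall : ¬ Big T (Z b (i + 1)) := fun h => hT.not_both _ h ⟨a, hsub⟩
      obtain ⟨a', hs⟩ := init (i + 1) hB' hZsmall
      refine ⟨a', ?_, hs⟩
      by_contra hle
      exact hs.2.2.2 a (not_lt.1 hle) hsub
    obtain ⟨a₀, ha₀⟩ := init j hB hns
    haveI : Nonempty ι := ⟨a₀⟩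
    choose! g hg1 hg2 using next'
    let f : ℕ → ι := fun i => Nat.rec a₀ (fun k prev => g (j + k) prev) i
    have hf : ∀ i, Sst (j + i) (f i) := by
      intro i
      induction i with
      | zero => exact ha₀
      | succ i ih => exact hg2 _ _ ih
    exact no_descending f fun i => hg1 _ _ (hf i)
  -- the centre carries no base
  have hcentre : ¬ (F none).IsBase (tag none ⁻¹' JM) := by
    intro hB
    obtain ⟨hno, hnu⟩ := hU₀ _ hB
    have side : ∀ b : Bool, ¬ Big T {n | tag none (centreElt b n) ∉ JM} → False := by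
      intro b hs
      obtain ⟨n, hn⟩ : ∃ n, tag none (centreElt b n) ∈ JM := by
        by_contra h
        push Not at h
        exact hs (hT.big_univ.mono fun n _ => h n)
      obtain ⟨-, hB'⟩ := hpart _ _ (some (b, 0)) (Sum.inl n) hn (pairKey_centre b n).symm
        (by simp)
      refine hs ((hsmall b 0 hB').mono fun m hm hm' => ?_)
      exact absurd (congrArg Sigma.fst (hinj (hJM hm) (hJM hm') (pairKey_centre b m).symm))
        (by simp)
    by_cases h : Big T (Sum.inl ⁻¹' (tag none ⁻¹' JM))ᶜ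
    · exact side true fun h' => hnu ⟨h, h'⟩
    · exact side false h
  -- hence no base on a ray at all
  have hray : ∀ j b, ¬ (F (some (b, j))).IsBase (tag (some (b, j)) ⁻¹' JM) := by
    intro j
    induction j with
    | zero =>
      intro b hB
      obtain ⟨n, hn⟩ : (Z b 0).Nonempty := by
        rw [nonempty_iff_ne_empty]
        exact fun h => hT.not_big_empty (h ▸ hsmall b 0 hB)
      exact hcentre (hpart _ _ none (centreElt b n) hn (pairKey_centre b n) (by simp)).2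
    | succ j ih =>
      intro b hB
      obtain ⟨n, hn⟩ : (Z b (j + 1)).Nonempty := by
        rw [nonempty_iff_ne_empty]
        exact fun h => hT.not_big_empty (h ▸ hsmall b (j + 1) hB)
      exact ih b (hpart _ _ (some (b, j)) (Sum.inr n) hn rfl (by simp)).2
  have hnobase : ∀ k, ¬ (F k).IsBase (tag k ⁻¹' JM) := by
    rintro (- | ⟨b, j⟩)
    · exact hcentre
    · exact hray j b
  -- hence every pair is met by `JN`
  have hall : ∀ k x, pairKey (tag k x) ∈ pairKey '' J := by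
    intro k x
    by_cases h : pairKey (tag k x) ∈ pairKey '' JN
    · exact image_mono hJN h
    · by_cases hx : tag k x ∈ JM
      · exact ⟨_, hJM hx, rfl⟩
      · exact absurd (hbase k x hx h) (hnobase k)
  let A : Bool → ℕ → Set Pt := fun b j => Sum.inl ⁻¹' (tag (some (b, j)) ⁻¹' J)
  have hout : ∀ b j n, tag (some (b, j)) (Sum.inr n) ∉ J → n ∈ A b (j + 1) := by
    intro b j n hn
    obtain ⟨⟨k, x⟩, hz, hk⟩ := hall (some (b, j)) (Sum.inr n)
    rcases k with - | ⟨b', j'⟩ <;> rcases x with m | m <;>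
      simp only [pairKey, tag, Prod.mk.injEq] at hk <;> obtain ⟨h1, h2, h3⟩ := hk
    · omega
    · omega
    · subst h1 h2 h3; exact hz
    · obtain rfl : j' = j := by omega
      subst h1 h3; exact absurd hz hn
  have hcent : ∀ b n, tag none (centreElt b n) ∉ J → n ∈ A b 0 := by
    intro b n hn
    obtain ⟨⟨k, x⟩, hz, hk⟩ := hall none (centreElt b n)
    rw [show pairKey (tag none (centreElt b n)) = (b, 0, n) from pairKey_centre b n] at hk
    rcases k with - | ⟨b', j'⟩ <;> rcases x with m | m <;>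
      simp only [pairKey, Prod.mk.injEq] at hk <;> obtain ⟨h1, h2, h3⟩ := hk
    · subst h1 h3; exact absurd hz hn
    · subst h1 h3; exact absurd hz hn
    · subst h1 h2 h3; exact hz
    · omega
  have hnover : ∀ b j, Big T (A b j) →
      ∃ a, Sub (T a) (A b (j + 1)) ∧ ∀ c ≤ a, ¬ Sub (T c) (A b j) := by
    intro b j hb
    by_contra hno
    obtain ⟨B, hB, hsub⟩ := (hblk (some (b, j))).exists_isBase_superset
    refine (hU B hB).1 ((rayDivision hT).over_mono _ _ hsub ⟨hb, fun ⟨a, ha, ha'⟩ => hno ⟨a, ?_, ha'⟩⟩)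
    exact ha.trans (sub_of_subset fun n hn => hout b j n hn)
  obtain ⟨b, hb⟩ : ∃ b, Big T (A b 0) := by
    by_contra hno
    obtain ⟨B, hB, hsub⟩ := (hblk none).exists_isBase_superset
    exact (hU₀ B hB).1 ((centreDivision hT).over_mono _ _ hsub
      ⟨fun h => hno ⟨false, h.mono fun n hn => hcent false n hn⟩,
        fun h => hno ⟨true, h.mono fun n hn => hcent true n hn⟩⟩)
  have hbig : ∀ j, Big T (A b j) := by
    intro j
    induction j with
    | zero => exact hb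
    | succ j ih => exact ⟨_, (hnover b j ih).choose_spec.1⟩
  refine no_descending (fun j => (hnover b j (hbig j)).choose) fun j => ?_
  by_contra hle
  exact (hnover b (j + 1) (hbig (j + 1))).choose_spec.2 _ (not_lt.1 hle)
    (hnover b j (hbig j)).choose_spec.1

/-- A packing/covering partition of `(M, K)` gives intersection for `(M, K✶)`. -/
theorem intersection_of_packingCovering {α : Type*} {M K : Matroid α} (hE : M.E = K.E)
    (h : HasPackingCovering M.E ![M, K]) : SatisfiesIntersection M K✶ := by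
  obtain ⟨P, C, S, I, hU, hd, hS, hSd, hScl, hIC, hind, hcov⟩ := h
  have hPE : P ⊆ M.E := hU ▸ subset_union_left
  have hCE : C ⊆ M.E := hU ▸ subset_union_right
  have hUK : P ∪ C = K.E := hU.trans hE
  obtain ⟨B₁, hB₁⟩ := M.exists_isBasis (S 0) ((hS 0).trans hPE)
  have hP1 : P ⊆ M.closure B₁ := by
    have h0 := hScl 0
    simp only [Matrix.cons_val_zero] at h0
    rw [M.restrict_closure_eq (hS 0) hPE] at h0
    rw [hB₁.closure_eq_closure]
    exact h0.symm.subset.trans inter_subset_left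
  have hB1P : B₁ ⊆ P := hB₁.subset.trans (hS 0)
  -- `B₁` is independent in the contraction of `K✶` by `C`
  have hK1 : ((K ↾ P)✶).Indep B₁ := by
    have h1 := hScl 1
    simp only [Matrix.cons_val_one, Matrix.cons_val_fin_one] at h1
    have hsp : (K ↾ P).Spanning (S 1) := by
      rw [Matroid.spanning_iff]
      exact ⟨by rw [h1]; rfl, hS 1⟩
    refine (hsp.compl_coindep).indep.subset ?_
    intro x hx
    exact ⟨hB1P hx, fun h' => (hSd 0 1 (by decide)).notMem_of_mem_left (hB₁.subset hx) h'⟩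
  have hI0 : (M ／ P).Indep (I 0) := by
    have h0 := hind 0
    simp only [Matrix.cons_val_zero] at h0
    rwa [contractOnto_eq M hU hd] at h0
  have hI1 : ((K✶ ↾ C)✶).Indep (I 1) := by
    have h1 := hind 1
    simpa only [Matrix.cons_val_one, Matrix.cons_val_fin_one] using h1
  have hsp2 : (K✶ ↾ C).Spanning (C \ I 1) := by
    have := Matroid.Coindep.compl_spanning (M := K✶ ↾ C) (I := I 1) hI1
    simpa using this
  obtain ⟨B₂, hB₂, hB₂sub⟩ := hsp2.exists_isBase_subset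
  rw [isBase_restrict_iff (by rw [dual_ground, ← hUK]; exact subset_union_right)] at hB₂
  have hB₂I : B₂ ⊆ I 0 := by
    intro x hx
    obtain ⟨hxC, hxI⟩ := hB₂sub hx
    rw [← hcov, mem_iUnion] at hxC
    obtain ⟨i, hi⟩ := hxC
    fin_cases i
    · exact hi
    · exact absurd hi hxI
  have hB₁b : M.IsBasis B₁ P := hB₁.indep.isBasis_of_subset_of_subset_closure hB1P hP1
  refine ⟨B₁ ∪ B₂, B₁, B₂, ?_, ?_, rfl, ?_, ?_⟩
  · rw [union_comm]
    exact ((hB₁b.contract_indep_iff).1 (hI0.subset hB₂I)).1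
  · have hdual : (K ↾ P)✶ = K✶ ／ C := by
      rw [← contractOnto_eq K✶ (P := C) (C := P) (by rw [dual_ground, union_comm]; exact hUK)
        hd.symm, dual_dual]
    rw [hdual, hB₂.contract_indep_iff] at hK1
    exact hK1.1
  · exact hd.mono hB1P hB₂.subset
  · refine subset_antisymm (union_subset (M.closure_subset_ground _)
      ((K✶.closure_subset_ground _).trans (by rw [dual_ground, hE]))) ?_
    rw [← hU]
    exact union_subset_union hP1 hB₂.subset_closure

lemma pairKey_fibre (x y z : Σ _ : Blocks, Blk) (h1 : pairKey x = pairKey y)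
    (h2 : pairKey y = pairKey z) : x = y ∨ y = z ∨ x = z := by
  let A : Bool × ℕ × Pt → Σ _ : Blocks, Blk := fun k => ⟨some (k.1, k.2.1), Sum.inl k.2.2⟩
  let B : Bool × ℕ × Pt → Σ _ : Blocks, Blk := fun k =>
    if k.2.1 = 0 then ⟨none, centreElt k.1 k.2.2⟩
    else ⟨some (k.1, k.2.1 - 1), Sum.inr k.2.2⟩
  have key : ∀ w, w = A (pairKey w) ∨ w = B (pairKey w) := by
    rintro ⟨_ | ⟨b, j⟩, n | n⟩
    · exact Or.inr rfl
    · exact Or.inr rfl
    · exact Or.inl rfl
    · exact Or.inr rfl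
  rcases key x with hx | hx <;> rcases key y with hy | hy <;> rcases key z with hz | hz <;>
    rw [h1, h2] at hx <;> rw [h2] at hy
  all_goals first
    | exact Or.inl (hx.trans hy.symm)
    | exact Or.inr (Or.inl (hy.trans hz.symm))
    | exact Or.inr (Or.inr (hx.trans hz.symm))

/-- The counterexample: countably many uniform matroids against a partition matroid of pairs. -/
theorem exists_counterexample :
    ∃ (F : Blocks → Matroid Blk) (N : Matroid (Σ _ : Blocks, Blk)),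
      (∀ k, (F k).E = univ ∧ ∀ Y, (F k).Indep Y ∨ (F k).Spanning Y) ∧
      (N.E = univ ∧ ∃ f : (Σ _ : Blocks, Blk) → Bool × ℕ × Pt,
        (∀ x y z, f x = f y → f y = f z → x = y ∨ y = z ∨ x = z) ∧
          ∀ J, N.Indep J ↔ InjOn f J) ∧
      (Matroid.sigma F).E = N.E ∧
      ¬ SatisfiesIntersection (Matroid.sigma F) N ∧
      ¬ HasPackingCovering (Matroid.sigma F).E ![Matroid.sigma F, N✶] := by
  obtain ⟨ι, _, _, T, hT⟩ := exists_rank
  obtain ⟨U, hUE, hU, hUc, hUu⟩ := (rayDivision hT).exists_matroid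
  obtain ⟨U₀, hU₀E, hU₀, hU₀c, hU₀u⟩ := (centreDivision hT).exists_matroid
  have hE : (famSum fun k : Blocks => k.elim U₀ (fun _ => U)).E =
      ((freeOn (univ : Set (Bool × ℕ × Pt))).comap pairKey).E := by
    ext ⟨k, x⟩
    rcases k with - | p <;> simp [famSum, hUE, hU₀E]
  refine ⟨fun k => k.elim U₀ (fun _ => U), (freeOn (univ : Set (Bool × ℕ × Pt))).comap pairKey,
    fun k => ?_, ⟨by simp, pairKey, pairKey_fibre, fun J => by simp⟩, hE,
    no_intersection hT U U₀ hUE hU₀E hU hU₀ hUc hU₀c, fun h => ?_⟩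
  · rcases k with - | p
    · exact ⟨hU₀E, hU₀u⟩
    · exact ⟨hUE, hUu⟩
  have := intersection_of_packingCovering (by rw [dual_ground]; exact hE) h
  rw [dual_dual] at this
  exact no_intersection hT U U₀ hUE hU₀E hU hU₀ hUc hU₀c this

end Vale.Agent.P068.Zfc
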