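import Vale.Agent.P068.Zfc.Windows

namespace Vale.Agent.P068.Zfc

open Set Filter

/-- The look-ahead value of a set of left-out elements at window `j`. -/
noncomputable def look (Q : Set Blk) (j : ℕ) : ℕ :=
  ⨆ k, if j < k then cnt Q k * S j / S k else 0

lemma term_le (Q : Set Blk) (j k : ℕ) :
    (if j < k then cnt Q k * S j / S k else 0) ≤ 2 * S j := by
  split
  · refine Nat.div_le_of_le_mul ?_
    calc cnt Q k * S j ≤ 2 * S k * S j := Nat.mul_le_mul_right _ (cnt_le Q k)
      _ = S k * (2 * S j) := by ring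
  · exact Nat.zero_le _

lemma bdd_look (Q : Set Blk) (j : ℕ) :
    BddAbove (range fun k => if j < k then cnt Q k * S j / S k else 0) :=
  ⟨2 * S j, by rintro _ ⟨k, rfl⟩; exact term_le Q j k⟩

lemma le_look (Q : Set Blk) {j k : ℕ} (h : j < k) : cnt Q k * S j / S k ≤ look Q j := by
  simpa [look, h] using le_ciSup (bdd_look Q j) k

lemma look_le {Q : Set Blk} {j n : ℕ} (h : ∀ k, j < k → cnt Q k * S j / S k ≤ n) :
    look Q j ≤ n := by
  refine ciSup_le fun k => ?_
  split
  next hk => exact h k hk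
  next => exact Nat.zero_le _

lemma look_mono {Q Q' : Set Blk} (h : Q ⊆ Q') (j : ℕ) : look Q j ≤ look Q' j :=
  look_le fun _ hk =>
    (Nat.div_le_div_right (Nat.mul_le_mul_right _ (cnt_mono h _))).trans (le_look Q' hk)

lemma Null.look_small {Q : Set Blk} (h : Null Q) (m : ℕ) :
    ∀ᶠ j in atTop, m * look Q j ≤ S j := by
  rcases Nat.eq_zero_or_pos m with rfl | hm
  · exact Filter.Eventually.of_forall fun j => by simp
  obtain ⟨N, hN⟩ := eventually_atTop.1 (h m)
  refine eventually_atTop.2 ⟨N, fun j hj => ?_⟩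
  have : look Q j ≤ S j / m := look_le fun k hk => by
    rw [Nat.le_div_iff_mul_le hm]
    calc cnt Q k * S j / S k * m ≤ cnt Q k * S j * m / S k := by
          rw [Nat.le_div_iff_mul_le (S_pos k), Nat.mul_right_comm]
          exact Nat.mul_le_mul_right _ (Nat.div_mul_le_self _ _)
      _ ≤ S j := Nat.div_le_of_le_mul (by
          calc cnt Q k * S j * m = (m * cnt Q k) * S j := by ring
            _ ≤ S k * S j := Nat.mul_le_mul_right _ (hN k (by omega)))
  exact (Nat.mul_le_mul_left m this).trans (Nat.mul_div_le _ _)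

/-- The balance of `Y` at window `j`, relative to the representative `g` of its class. -/
noncomputable def val (g Y : Set Blk) (j : ℕ) : ℤ :=
  (pre (g \ Y) j : ℤ) + look (g \ Y) j - pre (Y \ g) j

/-- The balance is eventually not negative. -/
def Ok (g Y : Set Blk) : Prop := ∀ᶠ j in atTop, 0 ≤ val g Y j

/-- The balance is eventually not negative and zero infinitely often. -/
def Tight (g Y : Set Blk) : Prop := Ok g Y ∧ ∃ᶠ j in atTop, val g Y j = 0

lemma val_mono {g Y Y' : Set Blk} (h : Y ⊆ Y') (j : ℕ) : val g Y' j ≤ val g Y j := by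
  have h1 := pre_mono (sdiff_subset_sdiff_right (s := g) h) j
  have h2 := look_mono (sdiff_subset_sdiff_right (s := g) h) j
  have h3 := pre_mono (sdiff_subset_sdiff_left (t := g) h) j
  unfold val
  omega

lemma Ok.mono {g Y Y' : Set Blk} (h : Ok g Y') (hs : Y ⊆ Y') : Ok g Y :=
  Filter.Eventually.mono h fun j hj => hj.trans (val_mono hs j)

lemma tight_self (g : Set Blk) : Tight g g := by
  have h : ∀ j, val g g j = 0 := by
    intro j
    have : look (∅ : Set Blk) j = 0 := Nat.le_zero.1 (look_le fun k _ => by simp [cnt])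
    simp [val, pre, this]
  exact ⟨Filter.Eventually.of_forall fun j => (h j).ge,
    Filter.Frequently.of_forall h⟩

lemma pre_insert {A : Set Blk} {x : Blk} (hx : x ∉ A) (j : ℕ) :
    pre (insert x A) j = pre A j + if win x ≤ j then 1 else 0 := by
  unfold pre
  by_cases h : win x ≤ j
  · rw [if_pos h, ← ncard_insert_of_notMem (fun h' => hx h'.1) (pre_finite A j)]
    congr 1
    ext y
    simp only [mem_insert_iff, mem_setOf_eq]
    constructor
    · rintro ⟨rfl | hy, hj⟩
      · exact Or.inl rfl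
      · exact Or.inr ⟨hy, hj⟩
    · rintro (rfl | ⟨hy, hj⟩)
      · exact ⟨Or.inl rfl, h⟩
      · exact ⟨Or.inr hy, hj⟩
  · rw [if_neg h, Nat.add_zero]
    congr 1
    ext y
    simp only [mem_insert_iff, mem_setOf_eq]
    constructor
    · rintro ⟨rfl | hy, hj⟩
      · exact absurd hj h
      · exact ⟨hy, hj⟩
    · rintro ⟨hy, hj⟩
      exact ⟨Or.inr hy, hj⟩

lemma cnt_insert_le (A : Set Blk) (x : Blk) (k : ℕ) :
    cnt (insert x A) k ≤ cnt A k + if win x = k then 1 else 0 := by
  by_cases h : win x = k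
  · rw [if_pos h]
    refine (ncard_le_ncard ?_ ((cnt_finite A k).insert x)).trans (ncard_insert_le _ _)
    rintro y ⟨rfl | hy, hk⟩
    · exact Or.inl rfl
    · exact Or.inr ⟨hy, hk⟩
  · rw [if_neg h, Nat.add_zero]
    refine ncard_le_ncard ?_ (cnt_finite A k)
    rintro y ⟨rfl | hy, hk⟩
    · exact absurd hk h
    · exact ⟨hy, hk⟩

lemma look_insert_le (A : Set Blk) (x : Blk) (j : ℕ) :
    look (insert x A) j ≤ look A j + if win x ≤ j then 0 else 1 := by
  refine look_le fun k hk => ?_
  have h1 := cnt_insert_le A x k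
  by_cases h : win x = k
  · rw [if_pos h] at h1
    rw [if_neg (by omega)]
    calc cnt (insert x A) k * S j / S k ≤ (cnt A k * S j + S k) / S k :=
          Nat.div_le_div_right (by
            calc cnt (insert x A) k * S j ≤ (cnt A k + 1) * S j := Nat.mul_le_mul_right _ h1
              _ = cnt A k * S j + S j := by ring
              _ ≤ cnt A k * S j + S k := Nat.add_le_add_left (S_le hk.le) _)
      _ = cnt A k * S j / S k + 1 := Nat.add_div_right _ (S_pos k)
      _ ≤ look A j + 1 := Nat.add_le_add_right (le_look A hk) 1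
  · rw [if_neg h, Nat.add_zero] at h1
    exact ((Nat.div_le_div_right (Nat.mul_le_mul_right _ h1)).trans (le_look A hk)).trans
      (Nat.le_add_right _ _)

lemma val_insert {g Y : Set Blk} {x : Blk} (hx : x ∉ Y) (j : ℕ) :
    val g Y j - 1 ≤ val g (insert x Y) j ∧
      (win x ≤ j → val g (insert x Y) j = val g Y j - 1) := by
  by_cases hxg : x ∈ g
  · have hQ : g \ Y = insert x (g \ insert x Y) := by
      ext y
      by_cases h : y = x
      · subst h; simp [hxg, hx]
      · simp [h]
    have hP : insert x Y \ g = Y \ g := insert_sdiff_of_mem Y hxg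
    have hx' : x ∉ g \ insert x Y := fun h => h.2 (mem_insert x Y)
    have h1 := pre_insert hx' j
    have h2 := look_insert_le (g \ insert x Y) x j
    have h3 := look_mono (subset_insert x (g \ insert x Y)) j
    rw [← hQ] at h1 h2 h3
    unfold val
    rw [hP]
    by_cases hw : win x ≤ j
    · rw [if_pos hw] at h1 h2
      exact ⟨by omega, fun _ => by omega⟩
    · rw [if_neg hw] at h1 h2
      exact ⟨by omega, fun h => absurd h hw⟩
  · have hP : insert x Y \ g = insert x (Y \ g) := insert_sdiff_of_notMem Y hxg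
    have hQ : g \ insert x Y = g \ Y := by
      ext y
      by_cases h : y = x
      · subst h; simp [hxg]
      · simp [h]
    have h1 := pre_insert (A := Y \ g) (x := x) (fun h => hx h.1) j
    unfold val
    rw [hP, hQ, h1]
    by_cases hw : win x ≤ j
    · rw [if_pos hw]; exact ⟨by omega, fun _ => by omega⟩
    · rw [if_neg hw]; exact ⟨by omega, fun h => absurd h hw⟩

lemma val_union_finite (g Y : Set Blk) (R : Finset Blk) :
    Disjoint Y ↑R → ∀ᶠ j in atTop, val g (Y ∪ ↑R) j = val g Y j - R.card := by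
  classical
  induction R using Finset.induction_on with
  | empty => intro _; exact Filter.Eventually.of_forall fun j => by simp
  | @insert a R ha ih =>
    intro hd
    rw [Finset.coe_insert, disjoint_insert_right] at hd
    filter_upwards [ih hd.2, eventually_ge_atTop (win a)] with j hj hja
    have hnot : a ∉ Y ∪ ↑R := by simp [hd.1, ha]
    rw [Finset.coe_insert, union_insert, (val_insert hnot j).2 hja, hj,
      Finset.card_insert_of_notMem ha]
    push_cast
    ring

/-- A tight set has no proper tight superset. -/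
lemma Tight.eq_of_subset {g Y Y' : Set Blk} (h : Tight g Y) (h' : Ok g Y') (hs : Y ⊆ Y') :
    Y = Y' := by
  refine subset_antisymm hs fun x hx => ?_
  by_contra hxY
  obtain ⟨j, hj0, hj, hjx⟩ :=
    (h.2.and_eventually (h'.and (eventually_ge_atTop (win x)))).exists
  have h1 := val_mono (g := g) (insert_subset hx hs) j
  rw [(val_insert hxY j).2 hjx] at h1
  omega

/-- The elements that can change the balance at window `j`. -/
def rel (Q : Set Blk) (j : ℕ) : Set Blk :=
  {x | win x ≤ j ∨ x ∈ Q ∧ S (win x) ≤ cnt Q (win x) * S j}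

lemma rel_finite {Q : Set Blk} (hQ : Null Q) (j : ℕ) : (rel Q j).Finite := by
  obtain ⟨N, hN⟩ := eventually_atTop.1 (hQ (2 * S j))
  refine ((finite_win_le j).union (finite_win_le N)).subset ?_
  rintro x (h | ⟨-, h⟩)
  · exact Or.inl h
  · refine Or.inr ?_
    by_contra hN'
    simp only [mem_setOf_eq, not_le] at hN'
    have h1 := hN (win x) hN'.le
    have h2 := S_pos (win x)
    have e : 2 * S j * cnt Q (win x) = 2 * (cnt Q (win x) * S j) := by ring
    omega

lemma val_congr {g I Y Y' : Set Blk} (hY : I ⊆ Y) (hY' : I ⊆ Y') (j : ℕ)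
    (h : ∀ x ∈ rel (g \ I) j, (x ∈ Y ↔ x ∈ Y')) : val g Y j = val g Y' j := by
  have key : ∀ Y Y' : Set Blk, I ⊆ Y → (∀ x ∈ rel (g \ I) j, (x ∈ Y ↔ x ∈ Y')) →
      pre (g \ Y) j ≤ pre (g \ Y') j ∧ look (g \ Y) j ≤ look (g \ Y') j ∧
        pre (Y \ g) j ≤ pre (Y' \ g) j := by
    intro Y Y' hY h
    refine ⟨ncard_le_ncard ?_ (pre_finite _ j), look_le fun k hk => ?_,
      ncard_le_ncard ?_ (pre_finite _ j)⟩
    · rintro x ⟨⟨hxg, hxY⟩, hxj⟩
      exact ⟨⟨hxg, fun h' => hxY ((h x (Or.inl hxj)).2 h')⟩, hxj⟩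
    · by_cases hrel : S k ≤ cnt (g \ I) k * S j
      · refine le_trans (Nat.div_le_div_right (Nat.mul_le_mul_right _ ?_)) (le_look (g \ Y') hk)
        refine ncard_le_ncard ?_ (cnt_finite _ k)
        rintro x ⟨⟨hxg, hxY⟩, hxk⟩
        refine ⟨⟨hxg, fun h' => hxY ((h x (Or.inr ⟨⟨hxg, fun hI => hxY (hY hI)⟩, ?_⟩)).2 h')⟩, hxk⟩
        rw [hxk]; exact hrel
      · have h0 : cnt (g \ Y) k * S j / S k = 0 := Nat.div_eq_of_lt
          (lt_of_le_of_lt (Nat.mul_le_mul_right _ (cnt_mono (sdiff_subset_sdiff_right hY) k))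
            (not_le.1 hrel))
        omega
    · rintro x ⟨⟨hxY, hxg⟩, hxj⟩
      exact ⟨⟨(h x (Or.inl hxj)).1 hxY, hxg⟩, hxj⟩
  obtain ⟨a1, a2, a3⟩ := key Y Y' hY h
  obtain ⟨b1, b2, b3⟩ := key Y' Y hY' fun x hx => (h x hx).symm
  unfold val
  omega

/-- A tight set exists inside every interval that crosses from `Ok` to its negation. -/
theorem exists_tight_between {g I X : Set Blk} (hIX : I ⊆ X) (hgI : Null (g \ I))
    (hI : Ok g I) (hX : ¬ Ok g X) : ∃ B, I ⊆ B ∧ B ⊆ X ∧ Tight g B := by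
  classical
  obtain ⟨n0, hn0⟩ := eventually_atTop.1 hI
  obtain ⟨e, he⟩ := exists_surjective_nat Blk
  let Z : ℕ → Set Blk := fun t => Nat.rec I (fun t Zt =>
    if e t ∈ X ∧ ∀ j, n0 ≤ j → 0 ≤ val g (insert (e t) Zt) j then insert (e t) Zt else Zt) t
  have hsucc : ∀ t, Z (t + 1) = if e t ∈ X ∧ ∀ j, n0 ≤ j → 0 ≤ val g (insert (e t) (Z t)) j
      then insert (e t) (Z t) else Z t := fun t => rfl
  have hinv : ∀ t, I ⊆ Z t ∧ Z t ⊆ X ∧ ∀ j, n0 ≤ j → 0 ≤ val g (Z t) j := by
    intro t
    induction t with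
    | zero => exact ⟨Subset.rfl, hIX, hn0⟩
    | succ t ih =>
      rw [hsucc]
      split
      next h => exact ⟨ih.1.trans (subset_insert _ _), insert_subset h.1 ih.2.1, h.2⟩
      next => exact ih
  have hmono : Monotone Z := monotone_nat_of_le_succ fun t => by
    rw [hsucc]
    split
    · exact subset_insert _ _
    · exact Subset.rfl
  let Y := ⋃ t, Z t
  have hZY : ∀ t, Z t ⊆ Y := fun t => subset_iUnion Z t
  have hIY : I ⊆ Y := (hinv 0).1.trans (hZY 0)
  have hYX : Y ⊆ X := iUnion_subset fun t => (hinv t).2.1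
  have hge : ∀ j, n0 ≤ j → 0 ≤ val g Y j := by
    intro j hj
    have hfin : (rel (g \ I) j).Finite := rel_finite hgI j
    have hex : ∀ x ∈ rel (g \ I) j, ∃ t, x ∈ Y → x ∈ Z t := fun x _ => by
      by_cases h : x ∈ Y
      · obtain ⟨t, ht⟩ := mem_iUnion.1 h; exact ⟨t, fun _ => ht⟩
      · exact ⟨0, fun h' => absurd h' h⟩
    choose! tt htt using hex
    have hcongr := val_congr (g := g) (Y := Y) (Y' := Z (hfin.toFinset.sup tt)) hIY (hinv _).1 j
      fun x hx => ⟨fun h => hmono (Finset.le_sup (hfin.mem_toFinset.2 hx)) (htt x hx h),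
        fun h => hZY _ h⟩
    rw [hcongr]
    exact (hinv _).2.2 j hj
  have hok : Ok g Y := eventually_atTop.2 ⟨n0, hge⟩
  have hrej : ∀ x ∈ X \ Y, ∃ j, n0 ≤ j ∧ val g Y j = 0 ∧ x ∈ rel (g \ I) j := by
    rintro x ⟨hxX, hxY⟩
    obtain ⟨t, rfl⟩ := he x
    have hnot : e t ∉ Z t := fun h => hxY (hZY t h)
    have hno : ¬ ∀ j, n0 ≤ j → 0 ≤ val g (insert (e t) (Z t)) j := fun h => hxY (hZY (t + 1) (by
      rw [hsucc, if_pos ⟨hxX, h⟩]; exact mem_insert _ _))
    push Not at hno
    obtain ⟨j, hj, hneg⟩ := hno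
    have h0 := (hinv t).2.2 j hj
    have h1 := (val_insert (g := g) hnot j).1
    have h2 := val_mono (g := g) (hZY t) j
    refine ⟨j, hj, le_antisymm (by omega) (hge j hj), ?_⟩
    by_contra hrel
    have := val_congr (g := g) (Y := insert (e t) (Z t)) (Y' := Z t)
      ((hinv t).1.trans (subset_insert _ _)) (hinv t).1 j fun y hy => by
        have : y ≠ e t := fun h => hrel (h ▸ hy)
        simp [this]
    omega
  by_cases hT : {j | n0 ≤ j ∧ val g Y j = 0}.Finite
  · have hR : (X \ Y).Finite := by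
      refine (hT.biUnion fun j _ => rel_finite hgI j).subset fun x hx => ?_
      obtain ⟨j, h1, h2, h3⟩ := hrej x hx
      exact mem_biUnion (x := j) ⟨h1, h2⟩ h3
    have hXeq : X = Y ∪ ↑hR.toFinset := by
      rw [Finite.coe_toFinset, union_sdiff_cancel hYX]
    have hXval : ∀ᶠ j in atTop, val g X j = val g Y j - hR.toFinset.card := by
      have h := val_union_finite g Y hR.toFinset (by simpa using disjoint_sdiff_right)
      rwa [← hXeq] at h
    have hlow : ∃ᶠ j in atTop, val g Y j ≤ (hR.toFinset.card : ℤ) :=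
      ((Filter.not_eventually.1 hX).and_eventually hXval).mono fun j ⟨h1, h2⟩ => by omega
    have hex : ∃ d : ℕ, ∃ᶠ j in atTop, val g Y j ≤ d := ⟨_, hlow⟩
    obtain ⟨S', hS', hS'c⟩ := Finset.exists_subset_card_eq (Nat.find_le hlow : Nat.find hex ≤ _)
    have hS'X : (↑S' : Set Blk) ⊆ X \ Y := fun x hx => hR.mem_toFinset.1 (hS' hx)
    refine ⟨Y ∪ ↑S', hIY.trans subset_union_left,
      union_subset hYX (hS'X.trans sdiff_subset), ?_, ?_⟩
    all_goals
      have hval := val_union_finite g Y S' (disjoint_sdiff_right.mono_right hS'X)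
      have hlo : ∀ᶠ j in atTop, (Nat.find hex : ℤ) ≤ val g Y j := by
        rcases Nat.eq_zero_or_pos (Nat.find hex) with h | h
        · exact Filter.Eventually.mono hok fun j hj => by omega
        · exact (Filter.not_frequently.1
            (Nat.find_min hex (Nat.sub_lt h Nat.one_pos))).mono fun j hj => by omega
    · exact (hval.and hlo).mono fun j ⟨h1, h2⟩ => by omega
    · exact ((Nat.find_spec hex).and_eventually (hval.and hlo)).mono fun j ⟨h1, h2, h3⟩ => by omega
  · refine ⟨Y, hIY, hYX, hok, Nat.frequently_atTop_iff_infinite.2 ?_⟩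
    exact Set.Infinite.mono (fun j hj => hj.2) hT

/-- Adding a suitable null part of a set that is not null makes any set dependent. -/
theorem exists_null_add {g Y D : Set Blk} (hQY : Null (g \ Y))
    (hD : ¬ Null D) (hdis : Disjoint D Y) : ∃ E ⊆ D, Null E ∧ ¬ Ok g (Y ∪ E) := by
  classical
  have hD' : ¬ Null (D \ g) := fun h => hD ((h.union hQY).mono fun x hx => by
    by_cases hg : x ∈ g
    · exact Or.inr ⟨hg, hdis.notMem_of_mem_left hx⟩
    · exact Or.inl ⟨hx, hg⟩)
  obtain ⟨m, hm⟩ := exists_dense_of_not_null hD'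
  let t : ℕ → ℕ := fun k => pre (g \ Y) k + look (g \ Y) k + 1
  have ht : ∀ n, ∀ᶠ k in atTop, n * t k ≤ S k := fun n => by
    filter_upwards [hQY.pre_small (3 * n), hQY.look_small (3 * n), eventually_le_S (3 * n)]
      with k h1 h2 h3
    have e1 : 3 * n * pre (g \ Y) k = 3 * (n * pre (g \ Y) k) := Nat.mul_assoc 3 n _
    have e2 : 3 * n * look (g \ Y) k = 3 * (n * look (g \ Y) k) := Nat.mul_assoc 3 n _
    have e3 : n * t k = n * pre (g \ Y) k + n * look (g \ Y) k + n := by simp only [t]; ring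
    omega
  choose E hE hEc using fun k => exists_subset_card_eq
    (s := {x ∈ D \ g | win x = k}) (n := min (t k) (cnt (D \ g) k)) (min_le_right _ _)
  have hEw : ∀ k, {x ∈ (⋃ i, E i) | win x = k} = E k := by
    intro k
    ext x
    refine ⟨?_, fun hx => ⟨mem_iUnion.2 ⟨k, hx⟩, (hE k hx).2⟩⟩
    rintro ⟨hx, hxk⟩
    obtain ⟨i, hi⟩ := mem_iUnion.1 hx
    obtain rfl : i = k := (hE i hi).2.symm.trans hxk
    exact hi
  have hEcnt : ∀ k, cnt (⋃ i, E i) k = min (t k) (cnt (D \ g) k) := fun k => by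
    rw [cnt, hEw k, hEc k]
  have hED : (⋃ i, E i) ⊆ D \ g := iUnion_subset fun i x hx => (hE i hx).1
  refine ⟨⋃ i, E i, hED.trans sdiff_subset, fun n => (ht n).mono fun k hk => ?_, fun hok => ?_⟩
  · rw [hEcnt]; exact (Nat.mul_le_mul_left n (min_le_left _ _)).trans hk
  obtain ⟨k, hk, hk1, hk2⟩ := (hm.and_eventually (hok.and (ht m))).exists
  have h1 : t k ≤ cnt (D \ g) k := by
    by_contra h
    have := Nat.mul_le_mul_left m (not_le.1 h).le
    omega
  have h2 : cnt (⋃ i, E i) k ≤ pre ((Y ∪ ⋃ i, E i) \ g) k :=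
    ncard_le_ncard (fun x hx => ⟨⟨Or.inr hx.1, (hED hx.1).2⟩, hx.2.le⟩) (pre_finite _ k)
  rw [hEcnt, min_eq_left h1] at h2
  have h3 := pre_mono (sdiff_subset_sdiff_right (s := g) (subset_union_left (s := Y)
    (t := ⋃ i, E i))) k
  have h4 := look_mono (sdiff_subset_sdiff_right (s := g) (subset_union_left (s := Y)
    (t := ⋃ i, E i))) k
  simp only [val, t] at hk1 h2
  omega

/-- Leaving out a suitable null part of a set that is not null makes any set independent. -/
theorem exists_null_remove {g Y D : Set Blk} (hPY : Null (Y \ g))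
    (hD : ¬ Null D) (hsub : D ⊆ Y) : ∃ E ⊆ D, Null E ∧ Ok g (Y \ E) := by
  classical
  have hD' : ¬ Null (D ∩ g) := fun h => hD ((h.union hPY).mono fun x hx => by
    by_cases hg : x ∈ g
    · exact Or.inl ⟨hx, hg⟩
    · exact Or.inr ⟨hsub hx, hg⟩)
  obtain ⟨m, hm⟩ := exists_dense_of_not_null hD'
  let p : ℕ → ℕ := pre (Y \ g)
  choose N hN using fun i => eventually_atTop.1 (hPY.pre_small i)
  choose next hnext1 hnext2 using fun b => frequently_atTop.1 hm b
  -- `kk i` is dense for `D`, and from there on `p` is an `(i+1)`-th of the window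
  let kk : ℕ → ℕ := fun i => Nat.rec (next (N 1)) (fun i prev => next (prev + 1 + N (i + 2))) i
  have hkk0 : ∀ i, N (i + 1) ≤ kk i ∧ S (kk i) < m * cnt (D ∩ g) (kk i) := by
    intro i
    cases i with
    | zero => exact ⟨hnext1 _, hnext2 _⟩
    | succ i => exact ⟨le_trans (Nat.le_add_left _ _) (hnext1 _), hnext2 _⟩
  have hstrict : StrictMono kk := strictMono_nat_of_lt_succ fun i =>
    lt_of_lt_of_le (Nat.lt_succ_self _) ((Nat.le_add_right _ _).trans (hnext1 _))
  let tg : ℕ → ℕ := fun i =>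
    (Finset.Ico (kk i) (kk (i + 1))).sup fun j => p j * (S (kk (i + 1)) / S j)
  have htg : ∀ i, (i + 1) * tg i ≤ S (kk (i + 1)) := by
    intro i
    rw [Nat.mul_comm, ← Nat.le_div_iff_mul_le (Nat.succ_pos i)]
    refine Finset.sup_le fun j hj => ?_
    obtain ⟨hj1, hj2⟩ := Finset.mem_Ico.1 hj
    rw [Nat.le_div_iff_mul_le (Nat.succ_pos i)]
    have h := hN (i + 1) j ((hkk0 i).1.trans hj1)
    calc p j * (S (kk (i + 1)) / S j) * (i + 1) = ((i + 1) * p j) * (S (kk (i + 1)) / S j) := by
          ring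
      _ ≤ S j * (S (kk (i + 1)) / S j) := Nat.mul_le_mul_right _ h
      _ = S (kk (i + 1)) := Nat.mul_div_cancel' (S_dvd hj2.le)
  choose E hE hEc using fun i => exists_subset_card_eq
    (s := {x ∈ D ∩ g | win x = kk (i + 1)}) (n := min (tg i) (cnt (D ∩ g) (kk (i + 1))))
    (min_le_right _ _)
  have hEw : ∀ i, {x ∈ (⋃ i, E i) | win x = kk (i + 1)} = E i := by
    intro i
    ext x
    refine ⟨?_, fun hx => ⟨mem_iUnion.2 ⟨i, hx⟩, (hE i hx).2⟩⟩
    rintro ⟨hx, hxk⟩
    obtain ⟨i', hi⟩ := mem_iUnion.1 hx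
    obtain rfl : i' = i := Nat.succ_injective (hstrict.injective ((hE i' hi).2.symm.trans hxk))
    exact hi
  have hEDg : (⋃ i, E i) ⊆ D ∩ g := iUnion_subset fun i x hx => (hE i hx).1
  refine ⟨⋃ i, E i, hEDg.trans inter_subset_left, fun n => ?_, ?_⟩
  · refine (eventually_gt_atTop (kk (n + 1))).mono fun k hk => ?_
    by_cases h : ∃ i, kk (i + 1) = k
    · obtain ⟨i, rfl⟩ := h
      have hni : n ≤ i + 1 := by
        by_contra hlt
        exact absurd (hstrict.monotone (show i + 1 ≤ n + 1 by omega)) (not_le.2 hk)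
      rw [cnt, hEw i, hEc i]
      exact (Nat.mul_le_mul hni (min_le_left _ _)).trans (htg i)
    · have h0 : {x ∈ (⋃ i, E i) | win x = k} = ∅ := by
        ext x
        simp only [mem_setOf_eq, mem_iUnion, mem_empty_iff_false, iff_false, not_and,
          forall_exists_index]
        exact fun i hi hk' => h ⟨i, ((hE i hi).2.symm.trans hk')⟩
      rw [cnt, h0]; simp
  · refine (eventually_ge_atTop (kk m)).mono fun j hj => ?_
    obtain ⟨i, hi, hj1, hj2⟩ : ∃ i, m ≤ i ∧ kk i ≤ j ∧ j < kk (i + 1) := by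
      have hex : ∃ i, j < kk (i + 1) := ⟨j, lt_of_lt_of_le (Nat.lt_succ_self j) hstrict.le_apply⟩
      have hmi : m ≤ Nat.find hex := by
        by_contra h
        exact absurd (lt_of_lt_of_le (Nat.find_spec hex)
          (hstrict.monotone (show Nat.find hex + 1 ≤ m by omega))) (not_lt.2 hj)
      refine ⟨Nat.find hex, hmi, ?_, Nat.find_spec hex⟩
      rcases Nat.eq_zero_or_pos (Nat.find hex) with h | h
      · rw [h]; exact (hstrict.monotone (Nat.zero_le m)).trans hj
      · have := Nat.find_min hex (Nat.sub_lt h Nat.one_pos)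
        rw [Nat.sub_add_cancel h] at this
        exact not_lt.1 this
    have h1 : tg i ≤ cnt (D ∩ g) (kk (i + 1)) := by
      by_contra h
      have := (Nat.mul_le_mul (show m ≤ i + 1 by omega) (not_le.1 h).le).trans (htg i)
      have := (hkk0 (i + 1)).2
      omega
    have h2 : tg i ≤ cnt (g \ (Y \ ⋃ i, E i)) (kk (i + 1)) := by
      rw [← min_eq_left h1, ← hEc i, ← hEw i]
      exact cnt_mono (show (⋃ i, E i) ⊆ g \ (Y \ ⋃ i, E i) from
        fun x hx => ⟨(hEDg hx).2, fun h => h.2 hx⟩) _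
    have h3 : p j * (S (kk (i + 1)) / S j) ≤ tg i :=
      Finset.le_sup (f := fun j => p j * (S (kk (i + 1)) / S j)) (Finset.mem_Ico.2 ⟨hj1, hj2⟩)
    have h4 : p j ≤ cnt (g \ (Y \ ⋃ i, E i)) (kk (i + 1)) * S j / S (kk (i + 1)) := by
      rw [Nat.le_div_iff_mul_le (S_pos _)]
      calc p j * S (kk (i + 1)) = p j * (S (kk (i + 1)) / S j) * S j := by
            rw [Nat.mul_assoc, Nat.div_mul_cancel (S_dvd hj2.le)]
        _ ≤ _ := Nat.mul_le_mul_right _ (h3.trans h2)
    have h5 := le_look (g \ (Y \ ⋃ i, E i)) hj2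
    have h6 := pre_mono (sdiff_subset_sdiff_left (t := g) (sdiff_subset (s := Y) (t := ⋃ i, E i))) j
    simp only [val]
    simp only [p] at h4
    omega

end Vale.Agent.P068.Zfc
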