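import Mathlib

namespace Vale.Agent.P068.Zfc

open Set Filter

/-- A point: a window number and a function on the binary words of that length. -/
abbrev Pt : Type := Σ k : ℕ, ((Fin k → Bool) → Bool)

/-- The ground type of one block: two sides of points. -/
abbrev Blk : Type := Pt ⊕ Pt

instance : Countable Pt := inferInstance

instance : Infinite Pt :=
  Infinite.of_injective (fun k => (⟨k, fun _ => false⟩ : Pt)) fun _ _ h => congrArg Sigma.fst h

/-- The window of a block element. -/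
def win : Blk → ℕ := Sum.elim Sigma.fst Sigma.fst

/-- The number of points of one side in window `k`. -/
def S (k : ℕ) : ℕ := 2 ^ 2 ^ k

lemma S_pos (k : ℕ) : 0 < S k := Nat.two_pow_pos _

lemma S_succ (k : ℕ) : S (k + 1) = S k * S k := by
  simp only [S]
  rw [pow_succ, mul_two, pow_add]

lemma two_le_S (k : ℕ) : 2 ≤ S k := by
  simpa [S] using Nat.pow_le_pow_right (show 0 < 2 by norm_num) (Nat.one_le_two_pow (n := k))

lemma S_dvd {j k : ℕ} (h : j ≤ k) : S j ∣ S k :=
  Nat.pow_dvd_pow _ (Nat.pow_le_pow_right (by norm_num) h)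

lemma S_le {j k : ℕ} (h : j ≤ k) : S j ≤ S k := Nat.le_of_dvd (S_pos k) (S_dvd h)

lemma self_le_S (k : ℕ) : k ≤ S k :=
  (Nat.lt_two_pow_self).le.trans (Nat.lt_two_pow_self).le

lemma eventually_le_S (m : ℕ) : ∀ᶠ k in atTop, m ≤ S k :=
  (eventually_ge_atTop m).mono fun k hk => hk.trans (self_le_S k)

lemma finite_win (k : ℕ) : {x : Blk | win x = k}.Finite := by
  refine ((((finite_univ (α := (Fin k → Bool) → Bool)).image fun f => (⟨k, f⟩ : Pt)).image
    Sum.inl).union (((finite_univ (α := (Fin k → Bool) → Bool)).image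
      fun f => (⟨k, f⟩ : Pt)).image Sum.inr)).subset ?_
  rintro (⟨k', f⟩ | ⟨k', f⟩) (h : k' = k) <;> subst h
  · exact Or.inl ⟨_, ⟨f, mem_univ f, rfl⟩, rfl⟩
  · exact Or.inr ⟨_, ⟨f, mem_univ f, rfl⟩, rfl⟩

lemma finite_win_le (j : ℕ) : {x : Blk | win x ≤ j}.Finite := by
  refine ((finite_Iic j).biUnion fun k _ => finite_win k).subset ?_
  intro x hx
  exact mem_biUnion (x := win x) hx rfl

/-- The number of elements of `Y` in window `k`. -/
noncomputable def cnt (Y : Set Blk) (k : ℕ) : ℕ := {x ∈ Y | win x = k}.ncard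

/-- The number of elements of `Y` in the windows up to `j`. -/
noncomputable def pre (Y : Set Blk) (j : ℕ) : ℕ := {x ∈ Y | win x ≤ j}.ncard

lemma cnt_finite (Y : Set Blk) (k : ℕ) : {x ∈ Y | win x = k}.Finite :=
  (finite_win k).subset fun _ h => h.2

lemma pre_finite (Y : Set Blk) (j : ℕ) : {x ∈ Y | win x ≤ j}.Finite :=
  (finite_win_le j).subset fun _ h => h.2

lemma cnt_mono {Y Y' : Set Blk} (h : Y ⊆ Y') (k : ℕ) : cnt Y k ≤ cnt Y' k :=
  ncard_le_ncard (fun _ hx => ⟨h hx.1, hx.2⟩) (cnt_finite Y' k)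

lemma pre_mono {Y Y' : Set Blk} (h : Y ⊆ Y') (j : ℕ) : pre Y j ≤ pre Y' j :=
  ncard_le_ncard (fun _ hx => ⟨h hx.1, hx.2⟩) (pre_finite Y' j)

lemma cnt_union_le (Y Y' : Set Blk) (k : ℕ) : cnt (Y ∪ Y') k ≤ cnt Y k + cnt Y' k := by
  refine le_trans (le_of_eq ?_) (ncard_union_le _ _)
  unfold cnt
  congr 1
  ext x
  simp [or_and_right]

lemma cnt_univ_le (k : ℕ) : cnt univ k ≤ 2 * S k := by
  classical
  have hcard : ((Finset.univ : Finset ((Fin k → Bool) → Bool))).card = S k := by
    simp [S, Finset.card_univ]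
  let T : Finset Blk :=
    (Finset.univ.image fun f : (Fin k → Bool) → Bool => (Sum.inl ⟨k, f⟩ : Blk)) ∪
      (Finset.univ.image fun f : (Fin k → Bool) → Bool => (Sum.inr ⟨k, f⟩ : Blk))
  have hsub : {x ∈ (univ : Set Blk) | win x = k} ⊆ (T : Set Blk) := by
    rintro (⟨k', f⟩ | ⟨k', f⟩) ⟨-, (h : k' = k)⟩ <;> subst h <;> simp [T]
  refine (ncard_le_ncard hsub T.finite_toSet).trans ?_
  rw [ncard_coe_finset, two_mul]
  refine (Finset.card_union_le _ _).trans ?_
  rw [← hcard]
  exact Nat.add_le_add Finset.card_image_le Finset.card_image_le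

lemma cnt_le (Y : Set Blk) (k : ℕ) : cnt Y k ≤ 2 * S k :=
  (cnt_mono (subset_univ Y) k).trans (cnt_univ_le k)

lemma pre_zero (Y : Set Blk) : pre Y 0 = cnt Y 0 := by
  simp [pre, cnt]

lemma pre_succ_le (Y : Set Blk) (j : ℕ) : pre Y (j + 1) ≤ pre Y j + cnt Y (j + 1) := by
  refine (ncard_le_ncard ?_ ((pre_finite Y j).union (cnt_finite Y (j + 1)))).trans
    (ncard_union_le _ _)
  rintro x ⟨hx, hj⟩
  rcases Nat.le_or_eq_of_le_succ hj with h | h
  · exact Or.inl ⟨hx, h⟩
  · exact Or.inr ⟨hx, h⟩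

lemma pre_le (Y : Set Blk) (j : ℕ) : pre Y j ≤ 4 * S j := by
  induction j with
  | zero => rw [pre_zero]; have := cnt_le Y 0; omega
  | succ j ih =>
    have h1 := pre_succ_le Y j
    have h2 := cnt_le Y (j + 1)
    have h3 : 2 * S j ≤ S (j + 1) := by rw [S_succ]; exact Nat.mul_le_mul_right _ (two_le_S j)
    omega

/-- Sets of density tending to zero in the windows. -/
def Null (Y : Set Blk) : Prop := ∀ m : ℕ, ∀ᶠ k in atTop, m * cnt Y k ≤ S k

lemma Null.mono {X Y : Set Blk} (h : Null Y) (hs : X ⊆ Y) : Null X := fun m =>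
  (h m).mono fun k hk => le_trans (Nat.mul_le_mul_left m (cnt_mono hs k)) hk

lemma null_of_finite {Y : Set Blk} (h : Y.Finite) : Null Y := by
  intro m
  obtain ⟨N, hN⟩ := (h.image win).bddAbove
  refine (eventually_gt_atTop N).mono fun k hk => ?_
  have : {x ∈ Y | win x = k} = ∅ := by
    ext x
    simp only [mem_setOf_eq, mem_empty_iff_false, iff_false, not_and]
    intro hx he
    have := hN ⟨x, hx, he⟩
    omega
  simp [cnt, this]

lemma null_empty : Null ∅ := null_of_finite finite_empty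

lemma Null.union {X Y : Set Blk} (hX : Null X) (hY : Null Y) : Null (X ∪ Y) := fun m =>
  ((hX (2 * m)).and (hY (2 * m))).mono fun k ⟨h1, h2⟩ => by
    have h3 := Nat.mul_le_mul_left m (cnt_union_le X Y k)
    have : m * (cnt X k + cnt Y k) = m * cnt X k + m * cnt Y k := Nat.mul_add m _ _
    have e1 : 2 * m * cnt X k = 2 * (m * cnt X k) := Nat.mul_assoc 2 m _
    have e2 : 2 * m * cnt Y k = 2 * (m * cnt Y k) := Nat.mul_assoc 2 m _
    omega

lemma exists_dense_of_not_null {D : Set Blk} (hD : ¬ Null D) :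
    ∃ m : ℕ, ∃ᶠ k in atTop, S k < m * cnt D k := by
  obtain ⟨m, hm⟩ := not_forall.1 hD
  exact ⟨m, (Filter.not_eventually.1 hm).mono fun k hk => not_le.1 hk⟩

/-- Inclusion up to a null set. -/
def ZLe (X Y : Set Blk) : Prop := Null (X \ Y)

lemma zle_of_subset {X Y : Set Blk} (h : X ⊆ Y) : ZLe X Y := by
  unfold ZLe; rw [sdiff_eq_empty.2 h]; exact null_empty

lemma ZLe.trans {X Y Z : Set Blk} (h1 : ZLe X Y) (h2 : ZLe Y Z) : ZLe X Z :=
  (h1.union h2).mono fun x hx => by
    by_cases h : x ∈ Y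
    · exact Or.inr ⟨h, hx.2⟩
    · exact Or.inl ⟨hx.1, h⟩

/-- Null sets are small against the prefix of windows as well. -/
lemma Null.pre_small {Y : Set Blk} (h : Null Y) (m : ℕ) :
    ∀ᶠ j in atTop, m * pre Y j ≤ S j := by
  obtain ⟨N, hN⟩ := eventually_atTop.1 ((h (2 * m)).and (eventually_le_S (8 * m)))
  refine eventually_atTop.2 ⟨N + 1, fun j hj => ?_⟩
  obtain ⟨i, rfl⟩ : ∃ i, j = i + 1 := ⟨j - 1, by omega⟩
  have h1 : 2 * m * cnt Y (i + 1) ≤ S (i + 1) := (hN (i + 1) (by omega)).1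
  have h2 : 8 * m * S i ≤ S (i + 1) := by
    rw [S_succ]; exact Nat.mul_le_mul_right _ (hN i (by omega)).2
  have h3 := Nat.mul_le_mul_left m ((pre_succ_le Y i).trans
    (Nat.add_le_add_right (pre_le Y i) _))
  have e1 : 2 * m * cnt Y (i + 1) = 2 * (m * cnt Y (i + 1)) := Nat.mul_assoc 2 m _
  have e2 : 8 * m * S i = 2 * (m * (4 * S i)) := by ring
  have e3 : m * (4 * S i + cnt Y (i + 1)) = m * (4 * S i) + m * cnt Y (i + 1) := Nat.mul_add m _ _
  omega

/-- The points selected by a real: those functions that are true at its initial segment. -/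
def sel (x : ℕ → Bool) : Set Pt := {a | a.2 (fun i => x i) = true}

/-- The selection on both sides of a block. -/
def bsel (x : ℕ → Bool) : Set Blk := {y | Sum.elim id id y ∈ sel x}

/-- The functions with prescribed values on a finite set. -/
lemma card_prescribed {k : ℕ} (t : Finset (Fin k → Bool)) (v : (Fin k → Bool) → Bool) :
    (Fintype.piFinset fun a => if a ∈ t then ({v a} : Finset Bool) else Finset.univ).card
      * 2 ^ t.card = S k := by
  classical
  rw [Fintype.card_piFinset]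
  have h : ∀ a, (if a ∈ t then ({v a} : Finset Bool) else Finset.univ).card =
      if a ∈ t then 1 else 2 := by
    intro a; split <;> simp
  simp only [h]
  rw [Finset.prod_ite, Finset.prod_const_one, one_mul, Finset.prod_const, ← pow_add]
  have hc : (Finset.univ.filter fun a => a ∉ t) = tᶜ := by ext a; simp
  rw [hc, Finset.card_compl, Nat.sub_add_cancel (Finset.card_le_univ t)]
  simp [S]

/-- Distinct reals are separated by long initial segments. -/
lemma eventually_injOn_restrict (s : Finset (ℕ → Bool)) :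
    ∀ᶠ k in atTop, InjOn (fun x : ℕ → Bool => fun i : Fin k => x i) ↑s := by
  classical
  have h : ∀ p ∈ s ×ˢ s, ∀ᶠ k in atTop,
      (fun i : Fin k => p.1 i) = (fun i : Fin k => p.2 i) → p.1 = p.2 := by
    rintro ⟨x, y⟩ -
    by_cases hxy : x = y
    · exact Filter.Eventually.of_forall fun k _ => hxy
    · obtain ⟨i, hi⟩ := Function.ne_iff.1 hxy
      exact (eventually_gt_atTop i).mono fun k hk h => absurd (congrFun h ⟨i, hk⟩) hi
  filter_upwards [(Finset.eventually_all (s ×ˢ s)).2 h] with k hk x hx y hy he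
  exact hk (x, y) (Finset.mem_product.2 ⟨hx, hy⟩) he

/-- A set that is not null is missed or swallowed by only finitely many selections. -/
lemma finite_bad {D : Set Blk} (hD : ¬ Null D) :
    {x | Null (D ∩ bsel x) ∨ Null (D \ bsel x)}.Finite := by
  classical
  by_contra hinf
  obtain ⟨m, hm⟩ := exists_dense_of_not_null hD
  obtain ⟨s, hs, hsc⟩ := Set.Infinite.exists_subset_card_eq hinf (4 * m)
  let val : (ℕ → Bool) → Bool := fun x => if Null (D ∩ bsel x) then false else true
  let bad : (ℕ → Bool) → Set Blk := fun x => if Null (D ∩ bsel x) then D ∩ bsel x else D \ bsel x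
  have hbad : ∀ x ∈ s, Null (bad x) := by
    intro x hx
    by_cases h : Null (D ∩ bsel x)
    · simp [bad, h]
    · simpa [bad, h] using (hs hx).resolve_left h
  have hU : Null (⋃ x ∈ s, bad x) := by
    have key : ∀ t : Finset (ℕ → Bool), (∀ x ∈ t, Null (bad x)) → Null (⋃ x ∈ t, bad x) := by
      intro t
      induction t using Finset.induction_on with
      | empty => intro _; simpa using null_empty
      | @insert a t ha ih =>
        intro h
        rw [Finset.set_biUnion_insert]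
        exact (h a (Finset.mem_insert_self _ _)).union
          (ih fun x hx => h x (Finset.mem_insert_of_mem hx))
    exact key s hbad
  obtain ⟨k, hk, hk', hinj⟩ :=
    (hm.and_eventually ((hU (2 * m)).and (eventually_injOn_restrict s))).exists
  let r : (ℕ → Bool) → (Fin k → Bool) := fun x i => x i
  let t := s.image r
  have htc : t.card = 4 * m := by rw [Finset.card_image_of_injOn hinj, hsc]
  let v : (Fin k → Bool) → Bool := fun a => if h : ∃ x ∈ s, r x = a then val h.choose else false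
  have hv : ∀ x ∈ s, v (r x) = val x := by
    intro x hx
    have h : ∃ y ∈ s, r y = r x := ⟨x, hx, rfl⟩
    simp only [v, dif_pos h]
    rw [hinj h.choose_spec.1 hx h.choose_spec.2]
  let T := Fintype.piFinset fun a => if a ∈ t then ({v a} : Finset Bool) else Finset.univ
  let side : ((Fin k → Bool) → Bool) → Pt := fun f => ⟨k, f⟩
  let U : Finset Blk := (T.image (Sum.inl ∘ side)) ∪ (T.image (Sum.inr ∘ side))
  have hsub : {y ∈ D | win y = k} ⊆ {y ∈ (⋃ x ∈ s, bad x) | win y = k} ∪ (U : Set Blk) := by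
    rintro y ⟨hyD, hyk⟩
    by_cases hy : y ∈ ⋃ x ∈ s, bad x
    · exact Or.inl ⟨hy, hyk⟩
    refine Or.inr ?_
    simp only [mem_iUnion, not_exists] at hy
    have hmem : ∀ (f : (Fin k → Bool) → Bool),
        (∀ x ∈ s, (y ∈ bsel x ↔ f (r x) = true)) → f ∈ T := by
      intro f hf
      simp only [T, Fintype.mem_piFinset]
      intro a
      split
      next ha =>
        obtain ⟨x, hx, rfl⟩ := Finset.mem_image.1 ha
        have h := hy x hx
        have h' := hf x hx
        rw [Finset.mem_singleton, hv x hx]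
        by_cases hn : Null (D ∩ bsel x)
        · simp only [bad, if_pos hn, mem_inter_iff, hyD, true_and] at h
          simpa [val, hn] using mt h'.2 h
        · simp only [bad, if_neg hn, Set.mem_sdiff, hyD, true_and, not_not] at h
          simpa [val, hn] using h'.1 h
      next => exact Finset.mem_univ _
    rcases y with ⟨k', f⟩ | ⟨k', f⟩ <;> obtain rfl : k' = k := hyk
    · simp only [U, Finset.coe_union, Finset.coe_image, mem_union, mem_image, Finset.mem_coe]
      exact Or.inl ⟨f, hmem f fun x _ => Iff.rfl, rfl⟩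
    · simp only [U, Finset.coe_union, Finset.coe_image, mem_union, mem_image, Finset.mem_coe]
      exact Or.inr ⟨f, hmem f fun x _ => Iff.rfl, rfl⟩
  have h1 : cnt D k ≤ cnt (⋃ x ∈ s, bad x) k + 2 * T.card := by
    refine (ncard_le_ncard hsub ((cnt_finite _ k).union U.finite_toSet)).trans
      ((ncard_union_le _ _).trans (Nat.add_le_add_left ?_ _))
    rw [ncard_coe_finset, two_mul]
    exact (Finset.card_union_le _ _).trans
      (Nat.add_le_add Finset.card_image_le Finset.card_image_le)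
  have h2 : T.card * 2 ^ (4 * m) = S k := htc ▸ card_prescribed t v
  have h3 : 4 * m < 2 ^ (4 * m) := Nat.lt_two_pow_self
  have h4 : T.card * (4 * m) ≤ S k := h2 ▸ Nat.mul_le_mul_left _ h3.le
  have h5 := Nat.mul_le_mul_left m h1
  have e1 : m * (cnt (⋃ x ∈ s, bad x) k + 2 * T.card) =
      m * cnt (⋃ x ∈ s, bad x) k + 2 * (T.card * m) := by ring
  have e2 : T.card * (4 * m) = 4 * (T.card * m) := by ring
  have e3 : 2 * m * cnt (⋃ x ∈ s, bad x) k = 2 * (m * cnt (⋃ x ∈ s, bad x) k) :=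
    Nat.mul_assoc 2 m _
  omega

/-- Fewer than continuum many sets that are not null are split by one pair of selections. -/
lemma exists_split (𝒜 𝒞 : Set (Set Blk)) (hA : Cardinal.mk 𝒜 < Cardinal.continuum)
    (hC : Cardinal.mk 𝒞 < Cardinal.continuum) (hAn : ∀ D ∈ 𝒜, ¬ Null D)
    (hCn : ∀ D ∈ 𝒞, ¬ Null D) :
    ∃ x y, (∀ D ∈ 𝒜, ¬ Null (D ∩ bsel x)) ∧ ∀ D ∈ 𝒞, ¬ Null (D ∩ (bsel y \ bsel x)) := by
  have key : ∀ 𝒟 : Set (Set Blk), Cardinal.mk 𝒟 < Cardinal.continuum → (∀ D ∈ 𝒟, ¬ Null D) →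
      ∃ x, ∀ D ∈ 𝒟, ¬ Null (D ∩ bsel x) ∧ ¬ Null (D \ bsel x) := by
    intro 𝒟 h𝒟 hn
    by_contra h
    push Not at h
    choose d hd1 hd2 using h
    let f : (ℕ → Bool) → 𝒟 := fun x => ⟨d x, hd1 x⟩
    have hcov : (univ : Set (ℕ → Bool)) ⊆ ⋃ D : 𝒟, f ⁻¹' {D} := fun x _ => mem_iUnion.2 ⟨f x, rfl⟩
    have hfib : ∀ D : 𝒟, Cardinal.mk (f ⁻¹' {D}) ≤ Cardinal.aleph0 := by
      intro D
      rw [Cardinal.le_aleph0_iff_set_countable]
      refine ((finite_bad (hn _ D.2)).subset ?_).countable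
      rintro x (rfl : f x = D)
      show Null (d x ∩ bsel x) ∨ Null (d x \ bsel x)
      by_cases h' : Null (d x ∩ bsel x)
      · exact Or.inl h'
      · exact Or.inr (hd2 x h')
    have h1 := (Cardinal.mk_le_mk_of_subset hcov).trans (Cardinal.mk_iUnion_le _)
    have h2 : (⨆ D : 𝒟, Cardinal.mk (f ⁻¹' {D})) ≤ Cardinal.aleph0 := ciSup_le' hfib
    have h3 : Cardinal.continuum ≤ Cardinal.mk 𝒟 * Cardinal.aleph0 := by
      refine le_trans (le_of_eq ?_) (h1.trans (mul_le_mul' le_rfl h2))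
      rw [Cardinal.mk_univ]; simp
    exact absurd h3 (not_le.2 (Cardinal.mul_lt_of_lt Cardinal.aleph0_le_continuum h𝒟
      Cardinal.aleph0_lt_continuum))
  obtain ⟨x, hx⟩ := key (𝒜 ∪ 𝒞) (lt_of_le_of_lt (Cardinal.mk_union_le _ _)
    (Cardinal.add_lt_of_lt Cardinal.aleph0_le_continuum hA hC))
    (fun D hD => hD.elim (hAn D) (hCn D))
  obtain ⟨y, hy⟩ := key ((fun D => D \ bsel x) '' 𝒞)
    (lt_of_le_of_lt Cardinal.mk_image_le hC)
    (by rintro _ ⟨D, hD, rfl⟩; exact (hx D (Or.inr hD)).2)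
  refine ⟨x, y, fun D hD => (hx D (Or.inl hD)).1, fun D hD h => (hy _ ⟨D, hD, rfl⟩).1 (h.mono ?_)⟩
  rintro z ⟨⟨h1, h2⟩, h3⟩
  exact ⟨h1, h3, h2⟩

end Vale.Agent.P068.Zfc
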